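import Vale.Agent.P252.MathlibUsed
import Vale.Agent.P252.Defs
import Vale.Agent.P252.BernsteinDefs
import Vale.Agent.P252.AffineDefs
import Vale.Agent.P252.Bdl.B1

/-! Euclidean and affine completeness of graphs over a convex domain. -/

open scoped ContDiff Topology
open Filter

namespace Vale.Agent.P252

variable {n : ℕ}

section euclid

variable {Ω : Set (EuclideanSpace ℝ (Fin n))} {u : EuclideanSpace ℝ (Fin n) → ℝ}

lemma continuousOn_fderiv_curve (hΩ : IsOpen Ω) (hu : ContDiffOn ℝ ∞ u Ω)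
    (γ : ℝ → EuclideanSpace ℝ (Fin n)) (hγ : ContDiff ℝ 1 γ)
    (hin : ∀ t ∈ Set.Icc (0 : ℝ) 1, γ t ∈ Ω) :
    ContinuousOn (fun t => fderiv ℝ u (γ t) (deriv γ t)) (Set.Icc 0 1) := by
  have h1 : Continuous (deriv γ) := hγ.continuous_deriv (le_refl _)
  have h2 : ContinuousOn (fun t => fderiv ℝ u (γ t)) (Set.Icc 0 1) :=
    (hu.continuousOn_fderiv_of_isOpen hΩ (by simp)).comp hγ.continuous.continuousOn hin
  exact h2.clm_apply h1.continuousOn

lemma continuousOn_speed (hΩ : IsOpen Ω) (hu : ContDiffOn ℝ ∞ u Ω)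
    (γ : ℝ → EuclideanSpace ℝ (Fin n)) (hγ : ContDiff ℝ 1 γ)
    (hin : ∀ t ∈ Set.Icc (0 : ℝ) 1, γ t ∈ Ω) :
    ContinuousOn (fun t => Real.sqrt (‖deriv γ t‖ ^ 2 + (fderiv ℝ u (γ t) (deriv γ t)) ^ 2))
      (Set.Icc 0 1) := by
  have h1 : Continuous (deriv γ) := hγ.continuous_deriv (le_refl _)
  exact (((h1.norm).pow 2).continuousOn.add
    ((continuousOn_fderiv_curve hΩ hu γ hγ hin).pow 2)).sqrt

lemma dist_le_graphLength_on (hΩ : IsOpen Ω) (hu : ContDiffOn ℝ ∞ u Ω)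
    (γ : ℝ → EuclideanSpace ℝ (Fin n)) (hγ : ContDiff ℝ 1 γ)
    (hin : ∀ t ∈ Set.Icc (0 : ℝ) 1, γ t ∈ Ω) :
    dist (γ 0) (γ 1) ≤ graphLength u γ := by
  have h1 : Continuous (deriv γ) := hγ.continuous_deriv (le_refl _)
  have h2 : ∫ t in (0 : ℝ)..1, deriv γ t = γ 1 - γ 0 :=
    intervalIntegral.integral_deriv_eq_sub
      (fun t _ => (hγ.differentiable (by simp)).differentiableAt)
      (h1.intervalIntegrable _ _)
  rw [dist_comm, dist_eq_norm, ← h2]
  refine (intervalIntegral.norm_integral_le_integral_norm (by norm_num)).trans ?_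
  unfold graphLength
  apply intervalIntegral.integral_mono_on (by norm_num) (h1.norm.intervalIntegrable _ _)
    ((continuousOn_speed hΩ hu γ hγ hin).intervalIntegrable_of_Icc (by norm_num))
  intro t _
  apply Real.le_sqrt_of_sq_le
  nlinarith only []

lemma abs_le_graphLength_on (hΩ : IsOpen Ω) (hu : ContDiffOn ℝ ∞ u Ω)
    (γ : ℝ → EuclideanSpace ℝ (Fin n)) (hγ : ContDiff ℝ 1 γ)
    (hin : ∀ t ∈ Set.Icc (0 : ℝ) 1, γ t ∈ Ω) :
    |u (γ 1) - u (γ 0)| ≤ graphLength u γ := by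
  have hd : ∀ s ∈ Set.uIcc (0 : ℝ) 1, HasDerivAt (fun s => u (γ s))
      (fderiv ℝ u (γ s) (deriv γ s)) s := by
    intro s hs
    rw [Set.uIcc_of_le (by norm_num)] at hs
    have h1 : HasDerivAt γ (deriv γ s) s :=
      (hγ.differentiable (by simp)).differentiableAt.hasDerivAt
    have h2 : HasFDerivAt u (fderiv ℝ u (γ s)) (γ s) :=
      ((hu.contDiffAt (hΩ.mem_nhds (hin s hs))).differentiableAt (by simp)).hasFDerivAt
    exact h2.comp_hasDerivAt s h1
  have hc := (continuousOn_fderiv_curve hΩ hu γ hγ hin).intervalIntegrable_of_Icc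
    (μ := MeasureTheory.volume) (by norm_num)
  have h5 := intervalIntegral.integral_eq_sub_of_hasDerivAt hd hc
  rw [← h5, ← Real.norm_eq_abs]
  refine (intervalIntegral.norm_integral_le_integral_norm (by norm_num)).trans ?_
  unfold graphLength
  apply intervalIntegral.integral_mono_on (by norm_num) hc.norm
    ((continuousOn_speed hΩ hu γ hγ hin).intervalIntegrable_of_Icc (by norm_num))
  intro t _
  apply Real.le_sqrt_of_sq_le
  rw [Real.norm_eq_abs, sq_abs]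
  have := sq_nonneg ‖deriv γ t‖
  linarith only [this]

lemma segment_mem (hcv : Convex ℝ Ω) {x y : EuclideanSpace ℝ (Fin n)} (hx : x ∈ Ω) (hy : y ∈ Ω) :
    ∀ t ∈ Set.Icc (0 : ℝ) 1, x + t • (y - x) ∈ Ω := by
  intro t ht
  have h := hcv hx hy (sub_nonneg.mpr ht.2) ht.1 (by ring)
  have e : (1 - t) • x + t • y = x + t • (y - x) := by
    rw [sub_smul, one_smul, smul_sub]; abel
  rwa [e] at h

lemma graphLength_segment_le_on (hΩ : IsOpen Ω) (hu : ContDiffOn ℝ ∞ u Ω)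
    (x y : EuclideanSpace ℝ (Fin n)) (M : ℝ) (hM0 : 0 ≤ M)
    (hin : ∀ t ∈ Set.Icc (0 : ℝ) 1, x + t • (y - x) ∈ Ω)
    (hM : ∀ t ∈ Set.Icc (0 : ℝ) 1, ‖fderiv ℝ u (x + t • (y - x))‖ ≤ M) :
    graphLength u (fun t => x + t • (y - x)) ≤ (1 + M) * dist x y := by
  have hγ : ContDiff ℝ 1 (fun t : ℝ => x + t • (y - x)) := by fun_prop
  have hd : ∀ t : ℝ, deriv (fun t : ℝ => x + t • (y - x)) t = y - x := by
    intro t
    have : HasDerivAt (fun t : ℝ => x + t • (y - x)) ((1 : ℝ) • (y - x)) t :=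
      ((hasDerivAt_id t).smul_const (y - x)).const_add x
    rw [this.deriv, one_smul]
  unfold graphLength
  have h1 : ∫ t in (0 : ℝ)..1, Real.sqrt (‖deriv (fun t : ℝ => x + t • (y - x)) t‖ ^ 2 +
      (fderiv ℝ u (x + t • (y - x)) (deriv (fun t : ℝ => x + t • (y - x)) t)) ^ 2)
      ≤ ∫ t in (0 : ℝ)..1, (1 + M) * dist x y := by
    apply intervalIntegral.integral_mono_on (by norm_num)
      ((continuousOn_speed hΩ hu _ hγ hin).intervalIntegrable_of_Icc (by norm_num))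
      (continuous_const.intervalIntegrable _ _)
    intro t ht
    rw [hd t]
    apply Real.sqrt_le_iff.mpr
    refine ⟨by (clear * - hM0; positivity), ?_⟩
    have h2 : |fderiv ℝ u (x + t • (y - x)) (y - x)| ≤ M * ‖y - x‖ :=
      ((fderiv ℝ u (x + t • (y - x))).le_opNorm _).trans
        (mul_le_mul_of_nonneg_right (hM t ht) (norm_nonneg _))
    have h3 : (fderiv ℝ u (x + t • (y - x)) (y - x)) ^ 2 ≤ (M * ‖y - x‖) ^ 2 := by
      rw [← sq_abs]
      exact pow_le_pow_left₀ (abs_nonneg _) h2 2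
    rw [dist_comm, dist_eq_norm]
    nlinarith only [h3, hM0]
  refine h1.trans ?_
  simp

/-- A smooth graph over an open convex set whose function tends to `+∞` at the boundary is
Euclidean complete. -/
theorem euclideanComplete_of_proper (hΩ : IsOpen Ω) (hcv : Convex ℝ Ω)
    (hu : ContDiffOn ℝ ∞ u Ω) (hprop : ∀ M : ℝ, IsClosed {x | x ∈ Ω ∧ u x ≤ M}) :
    EuclideanComplete Ω u := by
  intro x hxΩ hx
  have hne : ∀ a ∈ Ω, ∀ b ∈ Ω, {L | ∃ γ : ℝ → EuclideanSpace ℝ (Fin n), ContDiff ℝ 1 γ ∧ γ 0 = a ∧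
      γ 1 = b ∧ (∀ t ∈ Set.Icc (0 : ℝ) 1, γ t ∈ Ω) ∧ L = graphLength u γ}.Nonempty := by
    intro a ha b hb
    exact ⟨_, fun t => a + t • (b - a), by fun_prop, by simp, by simp, segment_mem hcv ha hb, rfl⟩
  have hle : ∀ a ∈ Ω, ∀ b ∈ Ω, dist a b ≤ graphDist Ω u a b := by
    intro a ha b hb
    apply le_csInf (hne a ha b hb)
    rintro L ⟨γ, hγ, h0, h1, h2, rfl⟩
    rw [← h0, ← h1]
    exact dist_le_graphLength_on hΩ hu γ hγ h2
  have hle2 : ∀ a ∈ Ω, ∀ b ∈ Ω, |u b - u a| ≤ graphDist Ω u a b := by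
    intro a ha b hb
    apply le_csInf (hne a ha b hb)
    rintro L ⟨γ, hγ, h0, h1, h2, rfl⟩
    rw [← h0, ← h1]
    exact abs_le_graphLength_on hΩ hu γ hγ h2
  have hc : CauchySeq x := by
    rw [Metric.cauchySeq_iff]
    intro ε hε
    obtain ⟨N, hN⟩ := hx ε hε
    exact ⟨N, fun i hi j hj => (hle _ (hxΩ i) _ (hxΩ j)).trans_lt (hN i hi j hj)⟩
  obtain ⟨y, hy⟩ := cauchySeq_tendsto_of_complete hc
  -- the limit is in `Ω`
  obtain ⟨N₀, hN₀⟩ := hx 1 one_pos
  have hyΩ : y ∈ Ω := by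
    have hcl := hprop (u (x N₀) + 1)
    have hmem : ∀ᶠ k in atTop, x k ∈ {z | z ∈ Ω ∧ u z ≤ u (x N₀) + 1} := by
      filter_upwards [eventually_ge_atTop N₀] with k hk
      refine ⟨hxΩ k, ?_⟩
      have h1 := hle2 _ (hxΩ N₀) _ (hxΩ k)
      have h2 := hN₀ N₀ le_rfl k hk
      have h3 := (abs_le.1 h1).2
      linarith only [h2, h3]
    exact (hcl.mem_of_tendsto hy hmem).1
  refine ⟨y, hyΩ, ?_⟩
  obtain ⟨r, hr, hball⟩ := Metric.nhds_basis_closedBall.mem_iff.1 (hΩ.mem_nhds hyΩ)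
  -- bound on the gradient near `y`
  obtain ⟨M, hM⟩ := (isCompact_closedBall y r).exists_bound_of_continuousOn
    ((hu.continuousOn_fderiv_of_isOpen hΩ (by simp)).mono hball)
  have hev : ∀ᶠ k in atTop, x k ∈ Metric.closedBall y r :=
    hy.eventually (Metric.closedBall_mem_nhds y hr)
  have hub : ∀ᶠ k in atTop, graphDist Ω u (x k) y ≤ (1 + |M|) * dist (x k) y := by
    filter_upwards [hev] with k hk
    have hseg := segment_mem (convex_closedBall y r) hk (Metric.mem_closedBall_self hr.le)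
    have h1 : graphLength u (fun t => x k + t • (y - x k)) ≤ (1 + |M|) * dist (x k) y := by
      apply graphLength_segment_le_on hΩ hu _ _ _ (abs_nonneg _)
        (fun t ht => hball (hseg t ht))
      intro t ht
      exact (hM _ (hseg t ht)).trans (le_abs_self _)
    refine (csInf_le ?_ ?_).trans h1
    · refine ⟨dist (x k) y, ?_⟩
      rintro L ⟨γ, hγ, h0, h1, h2, rfl⟩
      rw [← h0, ← h1]
      exact dist_le_graphLength_on hΩ hu γ hγ h2
    · exact ⟨fun t => x k + t • (y - x k), by fun_prop, by simp only [zero_smul, add_zero],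
        by simp, fun t ht => hball (hseg t ht), rfl⟩
  have hlb : ∀ᶠ k in atTop, 0 ≤ graphDist Ω u (x k) y :=
    Eventually.of_forall fun k => dist_nonneg.trans (hle _ (hxΩ k) _ hyΩ)
  have hlim : Tendsto (fun k => (1 + |M|) * dist (x k) y) atTop (𝓝 0) := by
    have := (tendsto_iff_dist_tendsto_zero.mp hy).const_mul (1 + |M|)
    simpa only [mul_zero] using this
  exact tendsto_of_tendsto_of_tendsto_of_le_of_le' tendsto_const_nhds hlim hlb hub

end euclid

section affine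

variable {Ω : Set (EuclideanSpace ℝ (Fin n))} {u : EuclideanSpace ℝ (Fin n) → ℝ}

lemma contDiffOn_pd (hΩ : IsOpen Ω) (i : Fin n) (f : EuclideanSpace ℝ (Fin n) → ℝ)
    (hf : ContDiffOn ℝ ∞ f Ω) : ContDiffOn ℝ ∞ (pd i f) Ω := by
  unfold pd
  have h : ContDiffOn ℝ ∞ (fderiv ℝ f) Ω := hf.fderiv_of_isOpen hΩ (by simp)
  exact h.clm_apply contDiffOn_const

lemma continuousOn_hess_elem (hΩ : IsOpen Ω) (hu : ContDiffOn ℝ ∞ u Ω) (i j : Fin n) :
    ContinuousOn (fun x => hess u x i j) Ω := by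
  unfold hess
  simp only [Matrix.of_apply]
  exact (contDiffOn_pd hΩ i _ (contDiffOn_pd hΩ j u hu)).continuousOn

lemma continuousOn_hess (hΩ : IsOpen Ω) (hu : ContDiffOn ℝ ∞ u Ω) :
    ContinuousOn (hess u) Ω :=
  continuousOn_pi.2 fun i => continuousOn_pi.2 fun j => continuousOn_hess_elem hΩ hu i j

lemma continuousOn_affMetric (hΩ : IsOpen Ω) (hu : ContDiffOn ℝ ∞ u Ω)
    (hpos : ∀ x ∈ Ω, (hess u x).PosDef) :
    ContinuousOn (fun z : EuclideanSpace ℝ (Fin n) × EuclideanSpace ℝ (Fin n) =>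
      affMetric u z.1 z.2) (Ω ×ˢ Set.univ) := by
  unfold affMetric
  have hm : Set.MapsTo (fun z : EuclideanSpace ℝ (Fin n) × EuclideanSpace ℝ (Fin n) => z.1)
      (Ω ×ˢ Set.univ) Ω := fun z hz => hz.1
  have h : ContinuousOn (fun z : EuclideanSpace ℝ (Fin n) × EuclideanSpace ℝ (Fin n) =>
      hess u z.1) (Ω ×ˢ Set.univ) :=
    (continuousOn_hess hΩ hu).comp continuous_fst.continuousOn hm
  have hdet : ContinuousOn (fun z : EuclideanSpace ℝ (Fin n) × EuclideanSpace ℝ (Fin n) =>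
      (hess u z.1).det) (Ω ×ˢ Set.univ) :=
    (continuous_id.matrix_det).comp_continuousOn h
  apply ContinuousOn.mul
  · exact hdet.rpow_const (fun z hz => Or.inl (hpos z.1 hz.1).det_pos.ne')
  · apply continuousOn_finsetSum
    intro i _
    apply continuousOn_finsetSum
    intro j _
    have h1 : ContinuousOn (fun z : EuclideanSpace ℝ (Fin n) × EuclideanSpace ℝ (Fin n) =>
      hess u z.1 i j) (Ω ×ˢ Set.univ) :=
      (continuousOn_hess_elem hΩ hu i j).comp continuous_fst.continuousOn hm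
    have h2 : Continuous fun z : EuclideanSpace ℝ (Fin n) × EuclideanSpace ℝ (Fin n) =>
      z.2 i := (EuclideanSpace.proj i : EuclideanSpace ℝ (Fin n) →L[ℝ] ℝ).continuous.comp continuous_snd
    have h3 : Continuous fun z : EuclideanSpace ℝ (Fin n) × EuclideanSpace ℝ (Fin n) =>
      z.2 j := (EuclideanSpace.proj j : EuclideanSpace ℝ (Fin n) →L[ℝ] ℝ).continuous.comp continuous_snd
    exact (h1.mul h2.continuousOn).mul h3.continuousOn

lemma affMetric_nonneg_at {x : EuclideanSpace ℝ (Fin n)} (hpos : (hess u x).PosDef)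
    (v : EuclideanSpace ℝ (Fin n)) : 0 ≤ affMetric u x v := by
  unfold affMetric
  apply mul_nonneg (Real.rpow_nonneg hpos.det_pos.le _)
  have := hpos.posSemidef.dotProduct_mulVec_nonneg (fun i => v i)
  simp only [dotProduct, Matrix.mulVec, Pi.star_apply, star_trivial, Finset.mul_sum] at this
  convert this using 3 with i _ j _
  ring

lemma affMetric_pos_at {x : EuclideanSpace ℝ (Fin n)} (hpos : (hess u x).PosDef)
    (v : EuclideanSpace ℝ (Fin n)) (hv : v ≠ 0) : 0 < affMetric u x v := by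
  unfold affMetric
  apply mul_pos (Real.rpow_pos_of_pos hpos.det_pos _)
  have hv' : (fun i => v i) ≠ 0 := by
    intro h
    apply hv
    ext i
    exact congrFun h i
  have := hpos.dotProduct_mulVec_pos hv'
  simp only [dotProduct, Matrix.mulVec, Pi.star_apply, star_trivial, Finset.mul_sum] at this
  convert this using 3 with i _ j _
  ring

/-- on a compact subset of `Ω` the metric is comparable with the Euclidean one -/
lemma affMetric_bounds_on (hΩ : IsOpen Ω) (hu : ContDiffOn ℝ ∞ u Ω)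
    (hpos : ∀ x ∈ Ω, (hess u x).PosDef) (K : Set (EuclideanSpace ℝ (Fin n))) (hK : IsCompact K)
    (hKΩ : K ⊆ Ω) :
    ∃ c > 0, ∃ C > 0, ∀ x ∈ K, ∀ v, (c * ‖v‖) ^ 2 ≤ affMetric u x v ∧
      affMetric u x v ≤ (C * ‖v‖) ^ 2 := by
  set S := Metric.sphere (0 : EuclideanSpace ℝ (Fin n)) 1 with hS
  have hSc : IsCompact S := isCompact_sphere _ _
  have hKS : IsCompact (K ×ˢ S) := hK.prod hSc
  have hcont : ContinuousOn (fun z : EuclideanSpace ℝ (Fin n) × EuclideanSpace ℝ (Fin n) =>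
      affMetric u z.1 z.2) (K ×ˢ S) :=
    (continuousOn_affMetric hΩ hu hpos).mono (Set.prod_mono hKΩ (Set.subset_univ _))
  by_cases hne : (K ×ˢ S).Nonempty
  · obtain ⟨z₁, hz₁, hmin⟩ := hKS.exists_isMinOn hne hcont
    obtain ⟨z₂, hz₂, hmax⟩ := hKS.exists_isMaxOn hne hcont
    have hv0 : ∀ v ∈ S, v ≠ 0 := by
      intro v hv h0
      rw [hS, mem_sphere_zero_iff_norm, h0, norm_zero] at hv
      exact zero_ne_one hv
    have h1 : 0 < affMetric u z₁.1 z₁.2 := affMetric_pos_at (hpos _ (hKΩ hz₁.1)) _ (hv0 _ hz₁.2)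
    have h2 : 0 < affMetric u z₂.1 z₂.2 := affMetric_pos_at (hpos _ (hKΩ hz₂.1)) _ (hv0 _ hz₂.2)
    refine ⟨Real.sqrt (affMetric u z₁.1 z₁.2), Real.sqrt_pos.2 h1,
      Real.sqrt (affMetric u z₂.1 z₂.2), Real.sqrt_pos.2 h2, ?_⟩
    intro x hx v
    by_cases hv : v = 0
    · subst hv
      have : affMetric u x 0 = 0 := by simp only [affMetric, PiLp.zero_apply, mul_zero, Finset.sum_const_zero]
      rw [this]
      simp
    · have hvn : 0 < ‖v‖ := norm_pos_iff.2 hv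
      set w := ‖v‖⁻¹ • v with hw
      have hwS : w ∈ S := by
        rw [hS, mem_sphere_zero_iff_norm, hw, norm_smul, norm_inv, norm_norm,
          inv_mul_cancel₀ hvn.ne']
      have hvw : v = ‖v‖ • w := by
        rw [hw, smul_smul, mul_inv_cancel₀ hvn.ne', one_smul]
      have e : affMetric u x v = ‖v‖ ^ 2 * affMetric u x w := by
        conv_lhs => rw [hvw]
        rw [affMetric_smul]
      have m1 := hmin (Set.mk_mem_prod hx hwS)
      have m2 := hmax (Set.mk_mem_prod hx hwS)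
      simp only [Set.mem_ofPred_eq] at m1 m2
      rw [e, mul_pow, mul_pow, Real.sq_sqrt h1.le, Real.sq_sqrt h2.le]
      constructor
      · rw [mul_comm]
        exact mul_le_mul_of_nonneg_left m1 (sq_nonneg _)
      · rw [mul_comm]
        exact mul_le_mul_of_nonneg_right m2 (sq_nonneg _)
  · refine ⟨1, one_pos, 1, one_pos, ?_⟩
    intro x hx v
    by_cases hv : v = 0
    · subst hv
      have : affMetric u x 0 = 0 := by simp only [affMetric, PiLp.zero_apply, mul_zero, Finset.sum_const_zero]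
      rw [this]
      simp
    · exfalso
      apply hne
      have hvn : 0 < ‖v‖ := norm_pos_iff.2 hv
      refine ⟨(x, ‖v‖⁻¹ • v), hx, ?_⟩
      simp only [hS, mem_sphere_zero_iff_norm]
      rw [norm_smul, norm_inv, norm_norm, inv_mul_cancel₀ hvn.ne']

lemma continuousOn_affSpeed (hΩ : IsOpen Ω) (hu : ContDiffOn ℝ ∞ u Ω)
    (hpos : ∀ x ∈ Ω, (hess u x).PosDef)
    (γ : ℝ → EuclideanSpace ℝ (Fin n)) (hγ : ContDiff ℝ 1 γ)
    (hin : ∀ t ∈ Set.Icc (0 : ℝ) 1, γ t ∈ Ω) :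
    ContinuousOn (fun t => Real.sqrt (affMetric u (γ t) (deriv γ t))) (Set.Icc 0 1) := by
  have h1 : Continuous (deriv γ) := hγ.continuous_deriv (le_refl _)
  exact ((continuousOn_affMetric hΩ hu hpos).comp
    (hγ.continuous.prodMk h1).continuousOn (fun t ht => ⟨hin t ht, Set.mem_univ _⟩)).sqrt

lemma affLength_mono_on (hΩ : IsOpen Ω) (hu : ContDiffOn ℝ ∞ u Ω)
    (hpos : ∀ x ∈ Ω, (hess u x).PosDef)
    (γ : ℝ → EuclideanSpace ℝ (Fin n)) (hγ : ContDiff ℝ 1 γ)
    (hin : ∀ t ∈ Set.Icc (0 : ℝ) 1, γ t ∈ Ω) (t : ℝ) (ht : t ∈ Set.Icc (0:ℝ) 1) :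
    ∫ s in (0 : ℝ)..t, Real.sqrt (affMetric u (γ s) (deriv γ s)) ≤ affLength u γ := by
  unfold affLength
  have hc := continuousOn_affSpeed hΩ hu hpos γ hγ hin
  apply intervalIntegral.integral_mono_interval le_rfl ht.1 ht.2
  · exact Eventually.of_forall fun _ => Real.sqrt_nonneg _
  · exact hc.intervalIntegrable_of_Icc (by norm_num)

lemma log_le_affLength_on (hΩ : IsOpen Ω) (hu : ContDiffOn ℝ ∞ u Ω)
    (hpos : ∀ x ∈ Ω, (hess u x).PosDef) {f : EuclideanSpace ℝ (Fin n) → ℝ}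
    (hf : ContDiffOn ℝ ∞ f Ω) (hf0 : ∀ x ∈ Ω, 0 < f x) (C : ℝ) (hC0 : 0 ≤ C)
    (hC : ∀ x ∈ Ω, ∀ v, (fderiv ℝ f x v) ^ 2 ≤ (C * f x) ^ 2 * affMetric u x v)
    (γ : ℝ → EuclideanSpace ℝ (Fin n)) (hγ : ContDiff ℝ 1 γ)
    (hin : ∀ t ∈ Set.Icc (0 : ℝ) 1, γ t ∈ Ω) (t : ℝ) (ht : t ∈ Set.Icc (0:ℝ) 1) :
    |Real.log (f (γ t)) - Real.log (f (γ 0))| ≤ C * affLength u γ := by
  have hsub : Set.Icc (0 : ℝ) t ⊆ Set.Icc 0 1 := Set.Icc_subset_Icc le_rfl ht.2
  have hd : ∀ s ∈ Set.uIcc (0 : ℝ) t, HasDerivAt (fun s => Real.log (f (γ s)))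
      (fderiv ℝ f (γ s) (deriv γ s) / f (γ s)) s := by
    intro s hs
    rw [Set.uIcc_of_le ht.1] at hs
    have hs' := hin s (hsub hs)
    have h1 : HasDerivAt γ (deriv γ s) s :=
      (hγ.differentiable (by simp)).differentiableAt.hasDerivAt
    have h2 : HasFDerivAt f (fderiv ℝ f (γ s)) (γ s) :=
      ((hf.contDiffAt (hΩ.mem_nhds hs')).differentiableAt (by simp)).hasFDerivAt
    exact (h2.comp_hasDerivAt s h1).log (hf0 _ hs').ne'
  have h3 := (continuousOn_fderiv_curve hΩ hf γ hγ hin).mono hsub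
  have h3' : ContinuousOn (fun t => f (γ t)) (Set.Icc 0 t) :=
    (hf.continuousOn.comp hγ.continuous.continuousOn hin).mono hsub
  have h4 : ContinuousOn (fun t => fderiv ℝ f (γ t) (deriv γ t) / f (γ t)) (Set.Icc 0 t) :=
    h3.div h3' fun s hs => (hf0 _ (hin s (hsub hs))).ne'
  have h4i := h4.intervalIntegrable_of_Icc (μ := MeasureTheory.volume) ht.1
  have hc := (continuousOn_affSpeed hΩ hu hpos γ hγ hin).mono hsub
  have hci := hc.intervalIntegrable_of_Icc (μ := MeasureTheory.volume) ht.1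
  have h5 := intervalIntegral.integral_eq_sub_of_hasDerivAt hd h4i
  rw [← h5, ← Real.norm_eq_abs]
  calc ‖∫ s in (0:ℝ)..t, fderiv ℝ f (γ s) (deriv γ s) / f (γ s)‖
      ≤ ∫ s in (0:ℝ)..t, ‖fderiv ℝ f (γ s) (deriv γ s) / f (γ s)‖ :=
        intervalIntegral.norm_integral_le_integral_norm ht.1
    _ ≤ ∫ s in (0:ℝ)..t, C * Real.sqrt (affMetric u (γ s) (deriv γ s)) := by
        apply intervalIntegral.integral_mono_on ht.1 h4i.norm (hci.const_mul C)
        intro s hs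
        have hs' := hin s (hsub hs)
        rw [Real.norm_eq_abs, abs_div, abs_of_pos (hf0 (γ s) hs'), div_le_iff₀ (hf0 (γ s) hs')]
        apply abs_le_of_sq_le_sq
        · have e : (C * Real.sqrt (affMetric u (γ s) (deriv γ s)) * f (γ s)) ^ 2
              = (C * f (γ s)) ^ 2 * affMetric u (γ s) (deriv γ s) := by
            rw [mul_pow, mul_pow, Real.sq_sqrt (affMetric_nonneg_at (hpos _ hs') _)]
            ring
          rw [e]
          exact hC _ hs' _
        · have := hf0 (γ s) hs'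
          (clear * - hC0 this; positivity)
    _ = C * ∫ s in (0:ℝ)..t, Real.sqrt (affMetric u (γ s) (deriv γ s)) := by
        rw [intervalIntegral.integral_const_mul]
    _ ≤ C * affLength u γ :=
        mul_le_mul_of_nonneg_left (affLength_mono_on hΩ hu hpos γ hγ hin t ht) hC0

lemma dist_le_affLength_on (hΩ : IsOpen Ω) (hu : ContDiffOn ℝ ∞ u Ω)
    (hpos : ∀ x ∈ Ω, (hess u x).PosDef) (c : ℝ) (hc0 : 0 < c)
    (γ : ℝ → EuclideanSpace ℝ (Fin n)) (hγ : ContDiff ℝ 1 γ)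
    (hin : ∀ t ∈ Set.Icc (0 : ℝ) 1, γ t ∈ Ω)
    (hc : ∀ t ∈ Set.Icc (0:ℝ) 1, ∀ v, (c * ‖v‖) ^ 2 ≤ affMetric u (γ t) v) :
    c * dist (γ 0) (γ 1) ≤ affLength u γ := by
  have h1 : Continuous (deriv γ) := hγ.continuous_deriv (le_refl _)
  have h2 : ∫ t in (0 : ℝ)..1, deriv γ t = γ 1 - γ 0 :=
    intervalIntegral.integral_deriv_eq_sub
      (fun t _ => (hγ.differentiable (by simp)).differentiableAt)
      (h1.intervalIntegrable _ _)
  rw [dist_comm, dist_eq_norm, ← h2]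
  calc c * ‖∫ t in (0 : ℝ)..1, deriv γ t‖ ≤ c * ∫ t in (0 : ℝ)..1, ‖deriv γ t‖ :=
        mul_le_mul_of_nonneg_left
          (intervalIntegral.norm_integral_le_integral_norm (by norm_num)) hc0.le
    _ = ∫ t in (0 : ℝ)..1, c * ‖deriv γ t‖ := by rw [intervalIntegral.integral_const_mul]
    _ ≤ affLength u γ := by
        unfold affLength
        apply intervalIntegral.integral_mono_on (by norm_num)
          ((h1.norm.const_mul c).intervalIntegrable _ _)
          ((continuousOn_affSpeed hΩ hu hpos γ hγ hin).intervalIntegrable_of_Icc (by norm_num))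
        intro t ht
        exact Real.le_sqrt_of_sq_le (hc t ht _)

lemma affLength_segment_le_on (hΩ : IsOpen Ω) (hu : ContDiffOn ℝ ∞ u Ω)
    (hpos : ∀ x ∈ Ω, (hess u x).PosDef)
    (x y : EuclideanSpace ℝ (Fin n)) (M : ℝ) (hM0 : 0 ≤ M)
    (hin : ∀ t ∈ Set.Icc (0 : ℝ) 1, x + t • (y - x) ∈ Ω)
    (hM : ∀ t ∈ Set.Icc (0 : ℝ) 1, ∀ v, affMetric u (x + t • (y - x)) v ≤ (M * ‖v‖) ^ 2) :
    affLength u (fun t => x + t • (y - x)) ≤ M * dist x y := by
  have hγ : ContDiff ℝ 1 (fun t : ℝ => x + t • (y - x)) := by fun_prop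
  have hd : ∀ t : ℝ, deriv (fun t : ℝ => x + t • (y - x)) t = y - x := by
    intro t
    have : HasDerivAt (fun t : ℝ => x + t • (y - x)) ((1 : ℝ) • (y - x)) t :=
      ((hasDerivAt_id t).smul_const (y - x)).const_add x
    rw [this.deriv, one_smul]
  have h1 : affLength u (fun t => x + t • (y - x)) ≤ ∫ t in (0 : ℝ)..1, M * dist x y := by
    unfold affLength
    apply intervalIntegral.integral_mono_on (by norm_num)
      ((continuousOn_affSpeed hΩ hu hpos _ hγ hin).intervalIntegrable_of_Icc (by norm_num))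
      (continuous_const.intervalIntegrable _ _)
    intro t ht
    rw [hd t]
    rw [dist_comm, dist_eq_norm]
    exact Real.sqrt_le_iff.mpr ⟨by (clear * - hM0; positivity), hM t ht _⟩
  refine h1.trans ?_
  simp

/-- A smooth locally uniformly convex graph over an open convex set is affine complete if there
is a proper positive function `f` whose logarithm is Lipschitz in the Berwald-Blaschke metric. -/
theorem affineComplete_of_proper (hΩ : IsOpen Ω) (hcv : Convex ℝ Ω) (hu : ContDiffOn ℝ ∞ u Ω)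
    (hpos : ∀ x ∈ Ω, (hess u x).PosDef) {f : EuclideanSpace ℝ (Fin n) → ℝ}
    (hf : ContDiffOn ℝ ∞ f Ω) (hf0 : ∀ x ∈ Ω, 0 < f x)
    (hprop : ∀ M : ℝ, IsCompact {x | x ∈ Ω ∧ f x ≤ M}) (C : ℝ) (hC0 : 0 ≤ C)
    (hC : ∀ x ∈ Ω, ∀ v, (fderiv ℝ f x v) ^ 2 ≤ (C * f x) ^ 2 * affMetric u x v) :
    AffineComplete Ω u := by
  intro x hxΩ hx
  -- short curves
  have hcurve : ∀ a ∈ Ω, ∀ b ∈ Ω, ∀ ε, affDist Ω u a b < ε →
      ∃ γ : ℝ → EuclideanSpace ℝ (Fin n), ContDiff ℝ 1 γ ∧ γ 0 = a ∧ γ 1 = b ∧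
      (∀ t ∈ Set.Icc (0 : ℝ) 1, γ t ∈ Ω) ∧ affLength u γ < ε := by
    intro a ha b hb ε h
    have hne : {L | ∃ γ : ℝ → EuclideanSpace ℝ (Fin n), ContDiff ℝ 1 γ ∧ γ 0 = a ∧ γ 1 = b ∧
        (∀ t ∈ Set.Icc (0 : ℝ) 1, γ t ∈ Ω) ∧ L = affLength u γ}.Nonempty :=
      ⟨_, fun t => a + t • (b - a), by fun_prop, by simp, by simp, segment_mem hcv ha hb, rfl⟩
    obtain ⟨L, ⟨γ, h1, h2, h3, h4, rfl⟩, hL⟩ := exists_lt_of_csInf_lt hne h
    exact ⟨γ, h1, h2, h3, h4, hL⟩
  obtain ⟨N₀, hN₀⟩ := hx 1 one_pos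
  set M := f (x N₀) * Real.exp (C + C) with hM
  have hbd : ∀ i ≥ N₀, Real.log (f (x i)) ≤ Real.log (f (x N₀)) + C := by
    intro i hi
    obtain ⟨γ, h1, h2, h3, h3', h4⟩ := hcurve _ (hxΩ N₀) _ (hxΩ i) _ (hN₀ N₀ le_rfl i hi)
    have := log_le_affLength_on hΩ hu hpos hf hf0 C hC0 hC γ h1 h3' 1
      (by simp only [Set.mem_Icc, zero_le_one, Std.le_refl, and_self])
    rw [h2, h3] at this
    have h5 : C * affLength u γ ≤ C * 1 := mul_le_mul_of_nonneg_left h4.le hC0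
    have := (abs_le.1 this).2
    linarith only [h5, this]
  have hKc : IsCompact {z | z ∈ Ω ∧ f z ≤ M} := hprop M
  obtain ⟨c, hc0, C₁, hC₁, hbounds⟩ := affMetric_bounds_on hΩ hu hpos _ hKc (fun z hz => hz.1)
  have hcurveIn : ∀ i ≥ N₀, ∀ γ : ℝ → EuclideanSpace ℝ (Fin n), ContDiff ℝ 1 γ → γ 0 = x i →
      (∀ t ∈ Set.Icc (0 : ℝ) 1, γ t ∈ Ω) → affLength u γ ≤ 1 →
      ∀ t ∈ Set.Icc (0:ℝ) 1, γ t ∈ {z | z ∈ Ω ∧ f z ≤ M} := by
    intro i hi γ h1 h2 h3' h4 t ht
    refine ⟨h3' t ht, ?_⟩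
    have h5 := log_le_affLength_on hΩ hu hpos hf hf0 C hC0 hC γ h1 h3' t ht
    have h6 := (abs_le.1 h5).2
    rw [h2] at h6
    have h7 : C * affLength u γ ≤ C * 1 := mul_le_mul_of_nonneg_left h4 hC0
    have h8 := hbd i hi
    have h9 : Real.log (f (γ t)) ≤ Real.log M := by
      rw [hM, Real.log_mul (hf0 _ (hxΩ N₀)).ne' (Real.exp_pos _).ne', Real.log_exp]
      linarith only [h6, h7, h8]
    have hMpos : 0 < M := mul_pos (hf0 _ (hxΩ N₀)) (Real.exp_pos _)
    exact (Real.log_le_log_iff (hf0 _ (h3' t ht)) hMpos).1 h9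
  have hlow : ∀ i ≥ N₀, ∀ j, ∀ ε ≤ 1, affDist Ω u (x i) (x j) < ε →
      c * dist (x i) (x j) < ε := by
    intro i hi j ε hε h
    obtain ⟨γ, h1, h2, h3, h3', h4⟩ := hcurve _ (hxΩ i) _ (hxΩ j) _ h
    have hin := hcurveIn i hi γ h1 h2 h3' (by linarith only [hε, h4])
    have h5 := dist_le_affLength_on hΩ hu hpos c hc0 γ h1 h3'
      (fun t ht v => (hbounds _ (hin t ht) v).1)
    rw [h2, h3] at h5
    linarith only [h4, h5]
  have hcauchy : CauchySeq x := by
    rw [Metric.cauchySeq_iff]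
    intro ε hε
    obtain ⟨N, hN⟩ := hx (min (c * ε) 1) (by (clear * - hc0 hε; positivity))
    refine ⟨max N N₀, fun i hi j hj => ?_⟩
    have h1 := hlow i (le_trans (le_max_right _ _) hi) j _ (min_le_right _ _)
      (hN i (le_trans (le_max_left _ _) hi) j (le_trans (le_max_left _ _) hj))
    have h2 : c * dist (x i) (x j) < c * ε := lt_of_lt_of_le h1 (min_le_left _ _)
    exact lt_of_mul_lt_mul_left h2 hc0.le
  obtain ⟨y, hy⟩ := cauchySeq_tendsto_of_complete hcauchy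
  have hxK : ∀ i ≥ N₀, x i ∈ {z | z ∈ Ω ∧ f z ≤ M} := by
    intro i hi
    refine ⟨hxΩ i, ?_⟩
    have h8 := hbd i hi
    have h9 : Real.log (f (x i)) ≤ Real.log M := by
      rw [hM, Real.log_mul (hf0 _ (hxΩ N₀)).ne' (Real.exp_pos _).ne', Real.log_exp]
      linarith only [h8, hC0]
    have hMpos : 0 < M := mul_pos (hf0 _ (hxΩ N₀)) (Real.exp_pos _)
    exact (Real.log_le_log_iff (hf0 _ (hxΩ i)) hMpos).1 h9
  have hyΩ : y ∈ Ω :=
    (hKc.isClosed.mem_of_tendsto hy ((eventually_ge_atTop N₀).mono hxK)).1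
  refine ⟨y, hyΩ, ?_⟩
  obtain ⟨r, hr, hball⟩ := Metric.nhds_basis_closedBall.mem_iff.1 (hΩ.mem_nhds hyΩ)
  obtain ⟨c₂, hc₂, C₂, hC₂, hb₂⟩ := affMetric_bounds_on hΩ hu hpos _ (isCompact_closedBall y r)
    hball
  have hev : ∀ᶠ k in atTop, x k ∈ Metric.closedBall y r :=
    hy.eventually (Metric.closedBall_mem_nhds y hr)
  have hub : ∀ᶠ k in atTop, affDist Ω u (x k) y ≤ C₂ * dist (x k) y := by
    filter_upwards [hev] with k hk
    have hseg := segment_mem (convex_closedBall y r) hk (Metric.mem_closedBall_self hr.le)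
    have h1 : affLength u (fun t => x k + t • (y - x k)) ≤ C₂ * dist (x k) y :=
      affLength_segment_le_on hΩ hu hpos _ _ _ hC₂.le (fun t ht => hball (hseg t ht))
        (fun t ht v => (hb₂ _ (hseg t ht) v).2)
    refine (csInf_le ?_ ?_).trans h1
    · refine ⟨0, ?_⟩
      rintro L ⟨γ, -, -, -, -, rfl⟩
      exact affLength_nonneg u γ
    · exact ⟨fun t => x k + t • (y - x k), by fun_prop, by simp only [zero_smul, add_zero],
        by simp, fun t ht => hball (hseg t ht), rfl⟩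
  have hlb : ∀ᶠ k in atTop, 0 ≤ affDist Ω u (x k) y := by
    refine Eventually.of_forall fun k => Real.sInf_nonneg ?_
    rintro L ⟨γ, -, -, -, -, rfl⟩
    exact affLength_nonneg u γ
  have hlim : Tendsto (fun k => C₂ * dist (x k) y) atTop (𝓝 0) := by
    have := (tendsto_iff_dist_tendsto_zero.mp hy).const_mul C₂
    simpa using this
  exact tendsto_of_tendsto_of_tendsto_of_le_of_le' tendsto_const_nhds hlim hlb hub

end affine

end Vale.Agent.P252
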