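import Vale.Agent.P252.MathlibUsed
import Vale.Agent.P252.Defs

namespace Vale.Agent.P252

/-- The graph `z = u(x)` over `Ω` lies in `z > |x_0|` and is invariant under the orthogonal maps of
`x' = (x_1, ..., x_{n-1})` and the boosts of the `(x_0, z)`-plane (the linear maps preserving
`z² - x_0²` and `z > |x_0|`): if `(x, u(x))` is in the graph and `|y'|² = |x'|²`, where
`|x'|² = |x|² - x_0²`, then `y ∈ Ω` and `u(y)² - y_0² = u(x)² - x_0²`. -/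
def BoostSymmetric {n : ℕ} [NeZero n] (Ω : Set (EuclideanSpace ℝ (Fin n)))
    (u : EuclideanSpace ℝ (Fin n) → ℝ) : Prop :=
  (∀ x ∈ Ω, |x 0| < u x) ∧
  ∀ x ∈ Ω, ∀ y : EuclideanSpace ℝ (Fin n), ‖y‖ ^ 2 - y 0 ^ 2 = ‖x‖ ^ 2 - x 0 ^ 2 →
    y ∈ Ω ∧ u y ^ 2 - y 0 ^ 2 = u x ^ 2 - x 0 ^ 2

end Vale.Agent.P252
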