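import Vale.Agent.P252.MathlibUsed
import Vale.Agent.P252.Defs
import Vale.Agent.P252.BernsteinDefs
import Vale.Agent.P252.AffineDefs
import Vale.Agent.P252.Bdl.B1

/-! The affine maximal equation for `v = h² / x₀` on the half-space `0 < x₀`, where `h = η(ρ)` is
the profile of the entire example `u = √(x₀² + h²)`. -/

open scoped ContDiff Topology
open Filter

namespace Vale.Agent.P252

variable {p : ℕ}

/-- `F` has differential `α dy + β drho` on the half-space `0 < x 0`. -/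
def DH (F α β : EuclideanSpace ℝ (Fin (p + 1)) → ℝ) : Prop :=
  ∀ x : EuclideanSpace ℝ (Fin (p + 1)), 0 < x 0 →
    HasFDerivAt F (α x • (dy : EuclideanSpace ℝ (Fin (p + 1)) →L[ℝ] ℝ) + β x • drho x) x

lemma isOpen_half : IsOpen {x : EuclideanSpace ℝ (Fin (p + 1)) | 0 < x 0} :=
  isOpen_lt continuous_const (EuclideanSpace.proj (0 : Fin (p + 1)) :
    EuclideanSpace ℝ (Fin (p + 1)) →L[ℝ] ℝ).continuous

lemma DD.toDH {F α β : EuclideanSpace ℝ (Fin (p + 1)) → ℝ} (h : DD F α β) : DH F α β :=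
  fun x _ => h x

lemma DH.congr {F α β α' β' : EuclideanSpace ℝ (Fin (p + 1)) → ℝ} (h : DH F α β)
    (h1 : ∀ x : EuclideanSpace ℝ (Fin (p + 1)), 0 < x 0 → α x = α' x)
    (h2 : ∀ x : EuclideanSpace ℝ (Fin (p + 1)), 0 < x 0 → β x = β' x) : DH F α' β' := by
  intro x hx
  rw [← h1 x hx, ← h2 x hx]; exact h x hx

lemma DH.mul {F G α β α' β' : EuclideanSpace ℝ (Fin (p + 1)) → ℝ} (hF : DH F α β)
    (hG : DH G α' β') : DH (fun x => F x * G x) (fun x => F x * α' x + G x * α x)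
      (fun x => F x * β' x + G x * β x) := by
  intro x hx
  refine HasFDerivAt.congr_fderiv ((hF x hx).fun_mul (hG x hx)) ?_
  ext v
  simp only [_root_.add_apply, _root_.smul_apply, smul_eq_mul]
  ring

lemma DH.inv_y : DH (fun x : EuclideanSpace ℝ (Fin (p + 1)) => (x 0)⁻¹)
    (fun x => -(1 / (x 0) ^ 2)) (fun _ => 0) := by
  intro x hx
  have h := (hasDerivAt_inv hx.ne').comp_hasFDerivAt x (DD.y x)
  refine HasFDerivAt.congr_fderiv h ?_
  ext v
  simp only [_root_.add_apply, _root_.smul_apply, smul_eq_mul]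
  ring

lemma DH.pd_zero {F α β : EuclideanSpace ℝ (Fin (p + 1)) → ℝ} (hF : DH F α β)
    (x : EuclideanSpace ℝ (Fin (p + 1))) (hx : 0 < x 0) : pd 0 F x = α x := by
  unfold pd
  rw [(hF x hx).fderiv]
  simp [dy_single_zero, drho_single_zero]

lemma DH.pd_succ {F α β : EuclideanSpace ℝ (Fin (p + 1)) → ℝ} (hF : DH F α β) (i : Fin p)
    (x : EuclideanSpace ℝ (Fin (p + 1))) (hx : 0 < x 0) : pd i.succ F x = β x * x i.succ := by
  unfold pd
  rw [(hF x hx).fderiv]
  simp [dy_single_succ, drho_single_succ]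

lemma pd_congr {n : ℕ} {f g : EuclideanSpace ℝ (Fin n) → ℝ} {x : EuclideanSpace ℝ (Fin n)}
    (h : f =ᶠ[𝓝 x] g) (i : Fin n) : pd i f x = pd i g x := by
  unfold pd
  rw [h.fderiv_eq]

lemma pd_congr_ev {n : ℕ} {f g : EuclideanSpace ℝ (Fin n) → ℝ} {x : EuclideanSpace ℝ (Fin n)}
    (h : f =ᶠ[𝓝 x] g) (i : Fin n) : pd i f =ᶠ[𝓝 x] pd i g := by
  filter_upwards [h.eventuallyEq_nhds] with y hy
  exact pd_congr hy i

lemma hess_congr {n : ℕ} {f g : EuclideanSpace ℝ (Fin n) → ℝ} {x : EuclideanSpace ℝ (Fin n)}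
    (h : f =ᶠ[𝓝 x] g) : hess f x = hess g x := by
  ext i j
  exact pd_congr (pd_congr_ev h j) i

lemma hess_of_DH {F α β α₁ α₂ β₂ : EuclideanSpace ℝ (Fin (p + 1)) → ℝ} (hF : DH F α β)
    (hα : DH α α₁ α₂) (hβ : DH β α₂ β₂) (x : EuclideanSpace ℝ (Fin (p + 1))) (hx : 0 < x 0) :
    hess F x = Mx (fun i => x i.succ) (α₁ x) (α₂ x) (β x) (β₂ x) := by
  have e0 : pd 0 F =ᶠ[𝓝 x] α := by
    filter_upwards [isOpen_half.mem_nhds hx] with y hy using hF.pd_zero y hy
  have es : ∀ j : Fin p, pd j.succ F =ᶠ[𝓝 x] fun x => β x * x j.succ := by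
    intro j
    filter_upwards [isOpen_half.mem_nhds hx] with y hy using hF.pd_succ j y hy
  ext i j
  unfold hess
  simp only [Matrix.of_apply]
  refine Fin.cases ?_ (fun i => ?_) i <;> refine Fin.cases ?_ (fun j => ?_) j
  · rw [pd_congr e0, hα.pd_zero x hx]; simp
  · rw [pd_congr (es j)]
    unfold pd
    have h1 : HasFDerivAt (fun x : EuclideanSpace ℝ (Fin (p + 1)) => x j.succ)
      (EuclideanSpace.proj (j.succ : Fin (p + 1)) :
        EuclideanSpace ℝ (Fin (p + 1)) →L[ℝ] ℝ) x :=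
      (EuclideanSpace.proj (j.succ : Fin (p + 1)) :
        EuclideanSpace ℝ (Fin (p + 1)) →L[ℝ] ℝ).hasFDerivAt
    have h2 := (hβ x hx).fun_mul h1
    rw [h2.fderiv]
    simp [dy_single_zero, drho_single_zero, mul_comm]
  · rw [pd_congr e0, hα.pd_succ i x hx]; simp
  · rw [pd_congr (es j)]
    unfold pd
    have h1 : HasFDerivAt (fun x : EuclideanSpace ℝ (Fin (p + 1)) => x j.succ)
      (EuclideanSpace.proj (j.succ : Fin (p + 1)) :
        EuclideanSpace ℝ (Fin (p + 1)) →L[ℝ] ℝ) x :=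
      (EuclideanSpace.proj (j.succ : Fin (p + 1)) :
        EuclideanSpace ℝ (Fin (p + 1)) →L[ℝ] ℝ).hasFDerivAt
    have h2 := (hβ x hx).fun_mul h1
    rw [h2.fderiv]
    by_cases hij : i = j
    · subst hij
      simp [dy_single_succ, drho_single_succ]
      ring
    · have hij' : j ≠ i := fun h => hij h.symm
      simp [dy_single_succ, drho_single_succ, hij]
      ring

section data

variable (D : OdeData p)

/-- the function `v = h² / y` on the half-space `0 < y` -/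
noncomputable def vv (x : EuclideanSpace ℝ (Fin (p + 1))) : ℝ := hh D x ^ 2 / x 0

lemma DH_vv : DH (vv D) (fun x => -(hh D x ^ 2 / (x 0) ^ 2))
    (fun x => 2 * aa D x * hh D x ^ 2 / x 0) := by
  have h := ((DD_hh D).pow 2).toDH.mul (DH.inv_y (p := p))
  refine DH.congr (F := fun x => hh D x ^ 2 / x 0) (by simpa only [div_eq_mul_inv] using h)
    (fun x hx => ?_) (fun x hx => ?_)
  · field_simp
    ring
  · field_simp
    simp only [Nat.cast_ofNat, Nat.add_one_sub_one, pow_one]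
    ring

lemma DH_vv_α : DH (fun x => -(hh D x ^ 2 / (x 0) ^ 2)) (fun x => 2 * hh D x ^ 2 / (x 0) ^ 3)
    (fun x => -(2 * aa D x * hh D x ^ 2 / (x 0) ^ 2)) := by
  have h := ((DD.const (p := p) (-1)).toDH.mul ((DD_hh D).pow 2).toDH).mul
    ((DH.inv_y (p := p)).mul (DH.inv_y (p := p)))
  have e : (fun x : EuclideanSpace ℝ (Fin (p + 1)) => -(hh D x ^ 2 / (x 0) ^ 2))
      = fun x => (-1 * hh D x ^ 2) * ((x 0)⁻¹ * (x 0)⁻¹) := by
    funext x
    rw [div_eq_mul_inv, ← mul_inv]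
    ring_nf
  rw [e]
  refine DH.congr h (fun x hx => ?_) (fun x hx => ?_)
  · field_simp
    ring
  · field_simp
    simp only [Nat.cast_ofNat, Nat.add_one_sub_one, pow_one]
    ring

lemma DH_vv_β : DH (fun x => 2 * aa D x * hh D x ^ 2 / x 0)
    (fun x => -(2 * aa D x * hh D x ^ 2 / (x 0) ^ 2))
    (fun x => 2 * (aa D x * bb D x + aa D x ^ 2) * hh D x ^ 2 / x 0) := by
  have h := ((((DD.const (p := p) 2).mul (DD_aa D)).mul ((DD_hh D).pow 2)).toDH).mul
    (DH.inv_y (p := p))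
  refine DH.congr (F := fun x => 2 * aa D x * hh D x ^ 2 / x 0)
    (by simpa only [div_eq_mul_inv] using h) (fun x hx => ?_) (fun x hx => ?_)
  · field_simp
    ring
  · field_simp
    simp only [Nat.cast_ofNat, Nat.add_one_sub_one, pow_one]
    ring

lemma hess_vv (x : EuclideanSpace ℝ (Fin (p + 1))) (hx : 0 < x 0) :
    hess (vv D) x = Mx (fun i => x i.succ) (2 * hh D x ^ 2 / (x 0) ^ 3)
      (-(2 * aa D x * hh D x ^ 2 / (x 0) ^ 2)) (2 * aa D x * hh D x ^ 2 / x 0)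
      (2 * (aa D x * bb D x + aa D x ^ 2) * hh D x ^ 2 / x 0) :=
  hess_of_DH (DH_vv D) (DH_vv_α D) (DH_vv_β D) x hx

lemma schur_vv (x : EuclideanSpace ℝ (Fin (p + 1))) (hx : 0 < x 0) :
    (2 * (aa D x * bb D x + aa D x ^ 2) * hh D x ^ 2 / x 0)
      - (-(2 * aa D x * hh D x ^ 2 / (x 0) ^ 2)) ^ 2 / (2 * hh D x ^ 2 / (x 0) ^ 3)
      = 2 * (aa D x * bb D x) * hh D x ^ 2 / x 0 := by
  have := hh_pos D x
  field_simp
  ring

lemma posDef_vv (x : EuclideanSpace ℝ (Fin (p + 1))) (hx : 0 < x 0) :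
    (hess (vv D) x).PosDef := by
  rw [hess_vv D x hx]
  have h2 := hh_pos D x
  have h3 := aa_pos D x
  have h4 := bb_pos D x
  apply Mx_posDef
  · positivity
  · positivity
  · rw [schur_vv D x hx]
    positivity

lemma det_vv (x : EuclideanSpace ℝ (Fin (p + 1))) (hx : 0 < x 0) :
    (hess (vv D) x).det = 2 ^ (p + 1) * GG D x * ((x 0) ^ (p + 3))⁻¹ := by
  have h2 := hh_pos D x
  have h3 := aa_pos D x
  rw [hess_vv D x hx, det_Mx _ _ _ _ _ (by positivity) (by positivity), schur_vv D x hx]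
  have e : 2 * (aa D x * bb D x) * hh D x ^ 2 / x 0 / (2 * aa D x * hh D x ^ 2 / x 0)
      = bb D x := by
    field_simp
  rw [e, ← sum_sq_eq]
  unfold GG
  rw [div_pow, mul_pow, mul_pow]
  field_simp
  ring

/-- the constant `2^(-(p+1) θ)` -/
noncomputable def c2 (p : ℕ) : ℝ := ((2 : ℝ) ^ (p + 1)) ^ (-th p)

lemma wfun_vv (x : EuclideanSpace ℝ (Fin (p + 1))) (hx : 0 < x 0) :
    wfun (vv D) x = c2 p * (x 0) ^ (p + 2) * KK D x := by
  have h2 := GG_pos D x
  unfold wfun KK c2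
  rw [det_vv D x hx]
  have e : (-(((p + 1 : ℕ) : ℝ) + 1) / (((p + 1 : ℕ) : ℝ) + 2)) = -th p := by
    unfold th
    push_cast
    rw [show ((p : ℝ) + 1 + 1) = p + 2 by ring, show ((p : ℝ) + 1 + 2) = p + 3 by ring]
    ring
  rw [e, Real.mul_rpow (by positivity) (by positivity), Real.mul_rpow (by positivity) h2.le]
  have e2 : (((x 0) ^ (p + 3))⁻¹ : ℝ) ^ (-th p) = (x 0) ^ (p + 2) := by
    rw [Real.inv_rpow (by positivity), Real.rpow_neg (by positivity), inv_inv,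
      ← Real.rpow_natCast, ← Real.rpow_mul hx.le, ← Real.rpow_natCast]
    congr 1
    unfold th
    push_cast
    have : (p : ℝ) + 3 ≠ 0 := by positivity
    field_simp
  rw [e2]
  ring

lemma DD_wt (hp : 1 ≤ p) : DD (fun x => c2 p * (x 0) ^ (p + 2) * KK D x)
    (fun x => c2 p * (((p : ℝ) + 2) * (x 0) ^ (p + 1)) * KK D x)
    (fun x => c2 p * (x 0) ^ (p + 2) * (KK D x * kk D x)) := by
  have h := ((DD.const (p := p) (c2 p)).mul ((DD.y (p := p)).pow (p + 2))).mul (DD_KK D hp)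
  refine DD.congr (F := fun x => c2 p * (x 0) ^ (p + 2) * KK D x) h (fun x => ?_) (fun x => ?_)
  · simp only [show p + 2 - 1 = p + 1 by omega]
    push_cast
    ring
  · ring

lemma DD_wt_α (hp : 1 ≤ p) : DD (fun x => c2 p * (((p : ℝ) + 2) * (x 0) ^ (p + 1)) * KK D x)
    (fun x => c2 p * (((p : ℝ) + 2) * (((p : ℝ) + 1) * (x 0) ^ p)) * KK D x)
    (fun x => c2 p * (((p : ℝ) + 2) * (x 0) ^ (p + 1)) * (KK D x * kk D x)) := by
  have h := ((DD.const (p := p) (c2 p)).mul ((DD.const (p := p) ((p : ℝ) + 2)).mul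
    ((DD.y (p := p)).pow (p + 1)))).mul (DD_KK D hp)
  refine DD.congr (F := fun x => c2 p * (((p : ℝ) + 2) * (x 0) ^ (p + 1)) * KK D x) h
    (fun x => ?_) (fun x => ?_)
  · simp only [show p + 1 - 1 = p by omega]
    push_cast
    ring
  · ring

lemma DD_wt_β (hp : 1 ≤ p) : DD (fun x => c2 p * (x 0) ^ (p + 2) * (KK D x * kk D x))
    (fun x => c2 p * (((p : ℝ) + 2) * (x 0) ^ (p + 1)) * (KK D x * kk D x))
    (fun x => c2 p * (x 0) ^ (p + 2) * (KK D x * (kk D x ^ 2 + kk' D x))) := by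
  have h := ((DD.const (p := p) (c2 p)).mul ((DD.y (p := p)).pow (p + 2))).mul
    ((DD_KK D hp).mul (DD_kk D))
  refine DD.congr (F := fun x => c2 p * (x 0) ^ (p + 2) * (KK D x * kk D x)) h
    (fun x => ?_) (fun x => ?_)
  · simp only [show p + 2 - 1 = p + 1 by omega]
    push_cast
    ring
  · ring

lemma hess_wv (hp : 1 ≤ p) (x : EuclideanSpace ℝ (Fin (p + 1))) (hx : 0 < x 0) :
    hess (wfun (vv D)) x = Mx (fun i => x i.succ)
      (c2 p * (((p : ℝ) + 2) * (((p : ℝ) + 1) * (x 0) ^ p)) * KK D x)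
      (c2 p * (((p : ℝ) + 2) * (x 0) ^ (p + 1)) * (KK D x * kk D x))
      (c2 p * (x 0) ^ (p + 2) * (KK D x * kk D x))
      (c2 p * (x 0) ^ (p + 2) * (KK D x * (kk D x ^ 2 + kk' D x))) := by
  have e : wfun (vv D) =ᶠ[𝓝 x] fun x => c2 p * (x 0) ^ (p + 2) * KK D x := by
    filter_upwards [isOpen_half.mem_nhds hx] with y hy using wfun_vv D y hy
  rw [hess_congr e]
  exact hess_of_DD (DD_wt D hp) (DD_wt_α D hp) (DD_wt_β D hp) x

lemma inv_vv (x : EuclideanSpace ℝ (Fin (p + 1))) (hx : 0 < x 0) :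
    (hess (vv D) x)⁻¹ = Mx (fun i => x i.succ)
      ((x 0) ^ 3 / (2 * hh D x ^ 2) * (1 + aa D x * (2 * rho x) / (1 + 2 * rho x * bb D x)))
      ((x 0) ^ 2 / (2 * hh D x ^ 2 * (1 + 2 * rho x * bb D x)))
      (x 0 / (2 * aa D x * hh D x ^ 2))
      (-(bb D x * x 0 / (2 * aa D x * hh D x ^ 2 * (1 + 2 * rho x * bb D x)))) := by
  apply Matrix.inv_eq_right_inv
  rw [hess_vv D x hx]
  have h2 := hh_pos D x
  have h3 := aa_pos D x
  have h4 := (pos1' D x).ne'
  apply Mx_mul_inv _ _ _ _ _ _ _ _ _ (2 * rho x) (sum_sq_eq x)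
  · field_simp
    ring
  · field_simp
    ring
  · field_simp
    ring
  · field_simp
  · field_simp
    ring

/-- the algebraic identity reducing (AM) for `v` to the ODE -/
lemma am_identity_half (P r A B k k' : ℝ) :
    (P + 2) * (P + 1) * A * ((1 + B * (2 * r)) + A * (2 * r)) + 2 * A * (P + 2) * k * (2 * r)
      + P * k * (1 + B * (2 * r)) + (2 * r) * (k ^ 2 + k') - (2 * r) * B * k
      = (P - 1) * (1 + B * (2 * r)) * (k + (P + 2) * A) + (k + (P + 2) * A)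
      + 2 * r * (k' + (P + 2) * A * (B - A) + (k + (P + 2) * A) ^ 2)
      + (P + 2) * A * (1 + B * (2 * r)) := by
  ring

lemma am_vv (hp : 1 ≤ p) (x : EuclideanSpace ℝ (Fin (p + 1))) (hx : 0 < x 0) :
    ∑ i, ∑ j, ((hess (vv D) x).det * (hess (vv D) x)⁻¹ i j) *
      pd i (pd j (wfun (vv D))) x = 0 := by
  have e0 : ∀ i j, pd i (pd j (wfun (vv D))) x = hess (wfun (vv D)) x i j := fun i j => rfl
  simp only [e0, inv_vv D x hx, hess_wv D hp x hx]
  rw [Mx_trace _ _ _ _ _ _ _ _ _ (2 * rho x) (sum_sq_eq x)]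
  have h2 := hh_pos D x
  have h3 := aa_pos D x
  have h4 := pos1' D x
  have h5 := am_identity_half (p : ℝ) (rho x) (aa D x) (bb D x) (kk D x) (kk' D x)
  have h6 := ode_identity (p : ℝ) (rho x) (aa D x) (bb D x) (bb' D x) (pos2' D x).ne'
    (heq' D x) (kk D x) (kk' D x) rfl (by unfold kk'; ring)
  rw [h6] at h5
  apply mul_eq_zero_of_right
  have h7 : (c2 p * (x 0) ^ (p + 3) * KK D x / (2 * hh D x ^ 2 * (aa D x) *
      (1 + 2 * rho x * bb D x))) * (((p : ℝ) + 2) * (p + 1) * aa D x *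
      ((1 + bb D x * (2 * rho x)) + aa D x * (2 * rho x)) +
      2 * aa D x * (p + 2) * kk D x * (2 * rho x)
      + p * kk D x * (1 + bb D x * (2 * rho x)) + (2 * rho x) * (kk D x ^ 2 + kk' D x)
      - (2 * rho x) * bb D x * kk D x) = 0 := by
    rw [h5, mul_zero]
  rw [← h7]
  have h8 := h4.ne'
  field_simp
  ring

end data

end Vale.Agent.P252
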