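import Vale.Agent.P252.MathlibUsed
import Vale.Agent.P252.Defs
import Vale.Agent.P252.Bdl.B1
import Vale.Agent.P252.H47.Pde

/-! Local version of the calculation of `Bdl.B1`: for `u = √(x₀² + η(ρ)²)` on an open set of values
of `ρ`, the affine maximal equation is equivalent to an ordinary differential equation. -/

open scoped ContDiff Topology
open Filter

namespace Vale.Agent.P252

variable {p : ℕ}

/-- `F` has differential `α dy + β drho` on the set `U`. -/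
def DU (U : Set (EuclideanSpace ℝ (Fin (p + 1)))) (F α β : EuclideanSpace ℝ (Fin (p + 1)) → ℝ) :
    Prop :=
  ∀ x ∈ U, HasFDerivAt F (α x • (dy : EuclideanSpace ℝ (Fin (p + 1)) →L[ℝ] ℝ) + β x • drho x) x

variable {U : Set (EuclideanSpace ℝ (Fin (p + 1)))}

lemma DD.toDU {F α β : EuclideanSpace ℝ (Fin (p + 1)) → ℝ} (h : DD F α β) : DU U F α β :=
  fun x _ => h x

lemma DU.congr {F α β α' β' : EuclideanSpace ℝ (Fin (p + 1)) → ℝ} (h : DU U F α β)
    (h1 : ∀ x ∈ U, α x = α' x) (h2 : ∀ x ∈ U, β x = β' x) : DU U F α' β' := by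
  intro x hx
  rw [← h1 x hx, ← h2 x hx]; exact h x hx

lemma DU.add {F G α β α' β' : EuclideanSpace ℝ (Fin (p + 1)) → ℝ} (hF : DU U F α β)
    (hG : DU U G α' β') : DU U (fun x => F x + G x) (fun x => α x + α' x)
      (fun x => β x + β' x) := by
  intro x hx
  refine HasFDerivAt.congr_fderiv ((hF x hx).fun_add (hG x hx)) ?_
  ext v
  simp only [_root_.add_apply, _root_.smul_apply, smul_eq_mul]
  ring

lemma DU.mul {F G α β α' β' : EuclideanSpace ℝ (Fin (p + 1)) → ℝ} (hF : DU U F α β)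
    (hG : DU U G α' β') : DU U (fun x => F x * G x) (fun x => F x * α' x + G x * α x)
      (fun x => F x * β' x + G x * β x) := by
  intro x hx
  refine HasFDerivAt.congr_fderiv ((hF x hx).fun_mul (hG x hx)) ?_
  ext v
  simp only [_root_.add_apply, _root_.smul_apply, smul_eq_mul]
  ring

lemma DU.comp {F α β : EuclideanSpace ℝ (Fin (p + 1)) → ℝ} (hF : DU U F α β)
    {φ : ℝ → ℝ} {d : EuclideanSpace ℝ (Fin (p + 1)) → ℝ}
    (h : ∀ x ∈ U, HasDerivAt φ (d x) (F x)) :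
    DU U (fun x => φ (F x)) (fun x => d x * α x) (fun x => d x * β x) := by
  intro x hx
  refine HasFDerivAt.congr_fderiv ((h x hx).comp_hasFDerivAt x (hF x hx)) ?_
  ext v
  simp only [_root_.add_apply, _root_.smul_apply, smul_eq_mul]
  ring

lemma DU.inv {F α β : EuclideanSpace ℝ (Fin (p + 1)) → ℝ} (hF : DU U F α β)
    (h0 : ∀ x ∈ U, F x ≠ 0) :
    DU U (fun x => (F x)⁻¹) (fun x => -α x / F x ^ 2) (fun x => -β x / F x ^ 2) := by
  have h := DU.comp hF (φ := fun t => t⁻¹) (d := fun x => -(F x ^ 2)⁻¹)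
    (fun x hx => hasDerivAt_inv (h0 x hx))
  refine h.congr (fun x hx => ?_) (fun x hx => ?_) <;> (have := h0 x hx; field_simp)

lemma DU.pow {F α β : EuclideanSpace ℝ (Fin (p + 1)) → ℝ} (hF : DU U F α β) (n : ℕ) :
    DU U (fun x => F x ^ n) (fun x => (n : ℝ) * F x ^ (n - 1) * α x)
      (fun x => (n : ℝ) * F x ^ (n - 1) * β x) :=
  DU.comp hF (φ := fun t => t ^ n) (d := fun x => (n : ℝ) * F x ^ (n - 1))
    (fun x _ => hasDerivAt_pow n (F x))

lemma DU.pd_zero {F α β : EuclideanSpace ℝ (Fin (p + 1)) → ℝ} (hF : DU U F α β)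
    (x : EuclideanSpace ℝ (Fin (p + 1))) (hx : x ∈ U) : pd 0 F x = α x := by
  unfold pd
  rw [(hF x hx).fderiv]
  simp [dy_single_zero, drho_single_zero]

lemma DU.pd_succ {F α β : EuclideanSpace ℝ (Fin (p + 1)) → ℝ} (hF : DU U F α β) (i : Fin p)
    (x : EuclideanSpace ℝ (Fin (p + 1))) (hx : x ∈ U) : pd i.succ F x = β x * x i.succ := by
  unfold pd
  rw [(hF x hx).fderiv]
  simp [dy_single_succ, drho_single_succ]

lemma hess_of_DU (hU : IsOpen U) {F α β α₁ α₂ β₂ : EuclideanSpace ℝ (Fin (p + 1)) → ℝ}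
    (hF : DU U F α β) (hα : DU U α α₁ α₂) (hβ : DU U β α₂ β₂)
    (x : EuclideanSpace ℝ (Fin (p + 1))) (hx : x ∈ U) :
    hess F x = Mx (fun i => x i.succ) (α₁ x) (α₂ x) (β x) (β₂ x) := by
  have e0 : pd 0 F =ᶠ[𝓝 x] α := by
    filter_upwards [hU.mem_nhds hx] with y hy using hF.pd_zero y hy
  have es : ∀ j : Fin p, pd j.succ F =ᶠ[𝓝 x] fun x => β x * x j.succ := by
    intro j
    filter_upwards [hU.mem_nhds hx] with y hy using hF.pd_succ j y hy
  ext i j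
  unfold hess
  simp only [Matrix.of_apply]
  refine Fin.cases ?_ (fun i => ?_) i <;> refine Fin.cases ?_ (fun j => ?_) j
  · rw [pd_congr e0, hα.pd_zero x hx]; simp
  · rw [pd_congr (es j)]
    unfold pd
    have h1 : HasFDerivAt (fun x : EuclideanSpace ℝ (Fin (p + 1)) => x j.succ)
      (EuclideanSpace.proj (j.succ : Fin (p + 1)) :
        EuclideanSpace ℝ (Fin (p + 1)) →L[ℝ] ℝ) x :=
      (EuclideanSpace.proj (j.succ : Fin (p + 1)) :
        EuclideanSpace ℝ (Fin (p + 1)) →L[ℝ] ℝ).hasFDerivAt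
    have h2 := (hβ x hx).fun_mul h1
    rw [h2.fderiv]
    simp [dy_single_zero, drho_single_zero, mul_comm]
  · rw [pd_congr e0, hα.pd_succ i x hx]; simp
  · rw [pd_congr (es j)]
    unfold pd
    have h1 : HasFDerivAt (fun x : EuclideanSpace ℝ (Fin (p + 1)) => x j.succ)
      (EuclideanSpace.proj (j.succ : Fin (p + 1)) :
        EuclideanSpace ℝ (Fin (p + 1)) →L[ℝ] ℝ) x :=
      (EuclideanSpace.proj (j.succ : Fin (p + 1)) :
        EuclideanSpace ℝ (Fin (p + 1)) →L[ℝ] ℝ).hasFDerivAt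
    have h2 := (hβ x hx).fun_mul h1
    rw [h2.fderiv]
    by_cases hij : i = j
    · subst hij
      simp [dy_single_succ, drho_single_succ]
      ring
    · have hij' : j ≠ i := fun h => hij h.symm
      simp [dy_single_succ, drho_single_succ, hij]
      ring

/-- logarithmic derivative of `K = G^(-θ)` in terms of `a`, `b`, `b'` -/
noncomputable def kL (p : ℕ) (a b b' : ℝ → ℝ) (ρ : ℝ) : ℝ :=
  -th p * ((p : ℝ) * (b ρ - a ρ) + (2 * p + 2) * a ρ + (2 * ρ * b' ρ + 2 * b ρ) / (1 + 2 * ρ * b ρ))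

/-- profile data on an open set of values of `ρ` -/
structure LocData (p : ℕ) where
  I : Set ℝ
  η : ℝ → ℝ
  a : ℝ → ℝ
  b : ℝ → ℝ
  b' : ℝ → ℝ
  k' : ℝ → ℝ
  I_open : IsOpen I
  η_pos : ∀ ρ ∈ I, 0 < η ρ
  a_pos : ∀ ρ ∈ I, 0 < a ρ
  pos1 : ∀ ρ ∈ I, 0 < 1 + 2 * ρ * b ρ
  hη : ∀ ρ ∈ I, HasDerivAt η (a ρ * η ρ) ρ
  ha : ∀ ρ ∈ I, HasDerivAt a (a ρ * (b ρ - a ρ)) ρ
  hb : ∀ ρ ∈ I, HasDerivAt b (b' ρ) ρ
  hk : ∀ ρ ∈ I, HasDerivAt (kL p a b b') (k' ρ) ρ

namespace LocData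

variable (D : LocData p)

/-- the open set on which the data live -/
def UU : Set (EuclideanSpace ℝ (Fin (p + 1))) := {x | rho x ∈ D.I}

lemma isOpen_UU : IsOpen D.UU := D.I_open.preimage contDiff_rho.continuous

noncomputable def hh (x : EuclideanSpace ℝ (Fin (p + 1))) : ℝ := D.η (rho x)
noncomputable def aa (x : EuclideanSpace ℝ (Fin (p + 1))) : ℝ := D.a (rho x)
noncomputable def bb (x : EuclideanSpace ℝ (Fin (p + 1))) : ℝ := D.b (rho x)
noncomputable def bb' (x : EuclideanSpace ℝ (Fin (p + 1))) : ℝ := D.b' (rho x)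
noncomputable def kk (x : EuclideanSpace ℝ (Fin (p + 1))) : ℝ := kL p D.a D.b D.b' (rho x)
noncomputable def kk' (x : EuclideanSpace ℝ (Fin (p + 1))) : ℝ := D.k' (rho x)

/-- the function `u = √(y² + h²)` -/
noncomputable def uu (x : EuclideanSpace ℝ (Fin (p + 1))) : ℝ :=
  Real.sqrt ((x 0) ^ 2 + D.hh x ^ 2)

variable {D}
variable {x : EuclideanSpace ℝ (Fin (p + 1))}

lemma hh_pos (hx : x ∈ D.UU) : 0 < D.hh x := D.η_pos _ hx
lemma aa_pos (hx : x ∈ D.UU) : 0 < D.aa x := D.a_pos _ hx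
lemma pos1' (hx : x ∈ D.UU) : 0 < 1 + 2 * rho x * D.bb x := D.pos1 _ hx

lemma uu_sq (x : EuclideanSpace ℝ (Fin (p + 1))) : D.uu x ^ 2 = (x 0) ^ 2 + D.hh x ^ 2 := by
  unfold uu
  rw [Real.sq_sqrt]
  positivity

lemma uu_pos (hx : x ∈ D.UU) : 0 < D.uu x := by
  unfold uu
  apply Real.sqrt_pos.mpr
  have := hh_pos hx
  positivity

variable (D)

lemma DD_hh : DU D.UU D.hh (fun _ => 0) (fun x => D.aa x * D.hh x) := by
  have h := DU.comp (U := D.UU) (DD.rho (p := p)).toDU (φ := D.η) (d := fun x => D.aa x * D.hh x)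
    (fun x hx => D.hη _ hx)
  exact h.congr (fun x _ => by simp) (fun x _ => by simp)

lemma DD_aa : DU D.UU D.aa (fun _ => 0) (fun x => D.aa x * (D.bb x - D.aa x)) := by
  have h := DU.comp (U := D.UU) (DD.rho (p := p)).toDU (φ := D.a)
    (d := fun x => D.aa x * (D.bb x - D.aa x)) (fun x hx => D.ha _ hx)
  exact h.congr (fun x _ => by simp) (fun x _ => by simp)

lemma DD_bb : DU D.UU D.bb (fun _ => 0) (fun x => D.bb' x) := by
  have h := DU.comp (U := D.UU) (DD.rho (p := p)).toDU (φ := D.b) (d := fun x => D.bb' x)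
    (fun x hx => D.hb _ hx)
  exact h.congr (fun x _ => by simp) (fun x _ => by simp)

lemma DD_kk : DU D.UU D.kk (fun _ => 0) (fun x => D.kk' x) := by
  have h := DU.comp (U := D.UU) (DD.rho (p := p)).toDU (φ := kL p D.a D.b D.b')
    (d := fun x => D.kk' x) (fun x hx => D.hk _ hx)
  exact h.congr (fun x _ => by simp) (fun x _ => by simp)

lemma DD_uu : DU D.UU D.uu (fun x => x 0 / D.uu x) (fun x => D.aa x * D.hh x ^ 2 / D.uu x) := by
  have h1 := ((DD.y (p := p)).pow 2).toDU (U := D.UU)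
  have h2 := (D.DD_hh).pow 2
  have h3 := h1.add h2
  have h4 := DU.comp h3 (φ := Real.sqrt)
    (d := fun x => 1 / (2 * Real.sqrt ((x 0) ^ 2 + D.hh x ^ 2)))
    (fun x hx => Real.hasDerivAt_sqrt (by have := hh_pos hx; positivity))
  refine h4.congr (fun x hx => ?_) (fun x hx => ?_)
  · change 1 / (2 * D.uu x) * _ = _
    have := uu_pos hx
    field_simp
    simp
  · change 1 / (2 * D.uu x) * _ = _
    have := uu_pos hx
    field_simp
    simp only [Nat.cast_ofNat, Nat.add_one_sub_one, pow_one, mul_zero, zero_add]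
    ring

lemma DD_uu_α : DU D.UU (fun x => x 0 / D.uu x) (fun x => D.hh x ^ 2 / D.uu x ^ 3)
    (fun x => -(x 0 * D.aa x * D.hh x ^ 2 / D.uu x ^ 3)) := by
  have h1 := ((DD.y (p := p)).toDU).mul ((D.DD_uu).inv (fun x hx => (uu_pos hx).ne'))
  refine DU.congr (F := fun x => x 0 / D.uu x) (by simpa only [div_eq_mul_inv] using h1)
    (fun x hx => ?_) (fun x hx => ?_)
  · have := uu_pos hx
    have h2 := uu_sq (D := D) x
    field_simp
    rw [h2]; ring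
  · have := uu_pos hx
    field_simp
    ring

lemma DD_uu_β : DU D.UU (fun x => D.aa x * D.hh x ^ 2 / D.uu x)
    (fun x => -(x 0 * D.aa x * D.hh x ^ 2 / D.uu x ^ 3))
    (fun x => D.aa x * D.bb x * D.hh x ^ 2 / D.uu x
      + (D.aa x) ^ 2 * D.hh x ^ 2 * (x 0) ^ 2 / D.uu x ^ 3) := by
  have h1 := (((D.DD_aa).mul ((D.DD_hh).pow 2))).mul
    ((D.DD_uu).inv (fun x hx => (uu_pos hx).ne'))
  refine DU.congr (F := fun x => D.aa x * D.hh x ^ 2 / D.uu x)
    (by simpa only [div_eq_mul_inv] using h1) (fun x hx => ?_) (fun x hx => ?_)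
  · have := uu_pos hx
    field_simp
    ring
  · have := uu_pos hx
    have h2 := uu_sq (D := D) x
    have h3 : (x 0) ^ 2 = D.uu x ^ 2 - D.hh x ^ 2 := by rw [h2]; ring
    rw [h3]
    field_simp
    simp only [Nat.cast_ofNat, Nat.add_one_sub_one, pow_one]
    ring

lemma hess_uu (hx : x ∈ D.UU) :
    hess D.uu x = Mx (fun i => x i.succ) (D.hh x ^ 2 / D.uu x ^ 3)
      (-(x 0 * D.aa x * D.hh x ^ 2 / D.uu x ^ 3)) (D.aa x * D.hh x ^ 2 / D.uu x)
      (D.aa x * D.bb x * D.hh x ^ 2 / D.uu x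
      + (D.aa x) ^ 2 * D.hh x ^ 2 * (x 0) ^ 2 / D.uu x ^ 3) :=
  hess_of_DU D.isOpen_UU D.DD_uu D.DD_uu_α D.DD_uu_β x hx

lemma schur_uu (hx : x ∈ D.UU) :
    (D.aa x * D.bb x * D.hh x ^ 2 / D.uu x
      + (D.aa x) ^ 2 * D.hh x ^ 2 * (x 0) ^ 2 / D.uu x ^ 3)
      - (-(x 0 * D.aa x * D.hh x ^ 2 / D.uu x ^ 3)) ^ 2 / (D.hh x ^ 2 / D.uu x ^ 3)
      = D.aa x * D.bb x * D.hh x ^ 2 / D.uu x := by
  have := uu_pos hx
  have := hh_pos hx
  field_simp
  ring

/-- the radial factor of the determinant -/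
noncomputable def GG (x : EuclideanSpace ℝ (Fin (p + 1))) : ℝ :=
  D.aa x ^ p * D.hh x ^ (2 * p + 2) * (1 + 2 * rho x * D.bb x)

variable {D} in
lemma GG_pos (hx : x ∈ D.UU) : 0 < D.GG x := by
  unfold GG
  have h2 := hh_pos hx
  have h3 := aa_pos hx
  have h4 := pos1' hx
  positivity

lemma det_uu (hx : x ∈ D.UU) :
    (hess D.uu x).det = D.GG x * (D.uu x ^ (p + 3))⁻¹ := by
  have h1 := uu_pos hx
  have h2 := hh_pos hx
  have h3 := aa_pos hx
  rw [D.hess_uu hx, det_Mx _ _ _ _ _ (by positivity) (by positivity), D.schur_uu hx]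
  have e : D.aa x * D.bb x * D.hh x ^ 2 / D.uu x / (D.aa x * D.hh x ^ 2 / D.uu x)
      = D.bb x := by
    field_simp
  rw [e, ← sum_sq_eq]
  unfold GG
  rw [div_pow, mul_pow]
  field_simp
  ring

/-- `K = G^(-θ)` -/
noncomputable def KK (x : EuclideanSpace ℝ (Fin (p + 1))) : ℝ := D.GG x ^ (-th p)

variable {D} in
lemma KK_pos (hx : x ∈ D.UU) : 0 < D.KK x := Real.rpow_pos_of_pos (GG_pos hx) _

lemma wfun_uu (hx : x ∈ D.UU) : wfun D.uu x = D.uu x ^ (p + 2) * D.KK x := by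
  have h1 := uu_pos hx
  have h2 := GG_pos hx
  unfold wfun KK
  rw [D.det_uu hx]
  have e : (-(((p + 1 : ℕ) : ℝ) + 1) / (((p + 1 : ℕ) : ℝ) + 2)) = -th p := by
    unfold th
    push_cast
    rw [show ((p : ℝ) + 1 + 1) = p + 2 by ring, show ((p : ℝ) + 1 + 2) = p + 3 by ring]
    ring
  rw [e, Real.mul_rpow h2.le (by positivity), mul_comm]
  congr 1
  rw [Real.inv_rpow (by positivity), Real.rpow_neg (by positivity), inv_inv,
    ← Real.rpow_natCast, ← Real.rpow_mul h1.le, ← Real.rpow_natCast]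
  congr 1
  unfold th
  push_cast
  have : (p : ℝ) + 3 ≠ 0 := by positivity
  field_simp

lemma DD_GG (hp : 1 ≤ p) : DU D.UU D.GG (fun _ => 0) (fun x => D.GG x *
    ((p : ℝ) * (D.bb x - D.aa x) + (2 * p + 2) * D.aa x +
      (2 * rho x * D.bb' x + 2 * D.bb x) / (1 + 2 * rho x * D.bb x))) := by
  have h1 := ((D.DD_aa).pow p).mul ((D.DD_hh).pow (2 * p + 2))
  have h2 := ((DD.const (p := p) 1).toDU (U := D.UU)).add
    ((((DD.const (p := p) 2).mul DD.rho).toDU).mul (D.DD_bb))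
  have h3 := h1.mul h2
  refine DU.congr (F := D.GG) h3 (fun x _ => ?_) (fun x hx => ?_)
  · simp only [mul_zero, add_zero, Nat.cast_add, Nat.cast_mul, Nat.cast_ofNat, Nat.add_one_sub_one]
  · have e1 := pos1' hx
    have e2 := aa_pos hx
    have e3 := hh_pos hx
    obtain ⟨q, rfl⟩ : ∃ q, p = q + 1 := ⟨p - 1, by omega⟩
    unfold GG
    simp only [Nat.add_sub_cancel, show 2 * (q + 1) + 2 - 1 = 2 * q + 3 by omega]
    field_simp
    push_cast
    ring

lemma DD_KK (hp : 1 ≤ p) : DU D.UU D.KK (fun _ => 0) (fun x => D.KK x * D.kk x) := by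
  have h := DU.comp (D.DD_GG hp) (φ := fun t => t ^ (-th p))
    (d := fun x => (-th p) * D.GG x ^ (-th p - 1))
    (fun x hx => by
      have := Real.hasDerivAt_rpow_const (x := D.GG x) (p := -th p) (Or.inl (GG_pos hx).ne')
      simpa using this)
  refine DU.congr (F := D.KK) h (fun x _ => by simp) (fun x hx => ?_)
  have e3 := GG_pos hx
  rw [Real.rpow_sub_one e3.ne']
  change -th p * (D.KK x / D.GG x) * _ = _
  unfold kk kL
  change _ = D.KK x * (-th p * ((p : ℝ) * (D.bb x - D.aa x) + (2 * p + 2) * D.aa x +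
      (2 * rho x * D.bb' x + 2 * D.bb x) / (1 + 2 * rho x * D.bb x)))
  set T := (p : ℝ) * (D.bb x - D.aa x) + (2 * p + 2) * D.aa x +
      (2 * rho x * D.bb' x + 2 * D.bb x) / (1 + 2 * rho x * D.bb x) with hT
  have e8 := e3.ne'
  field_simp

/-- `Z = u^p K` -/
noncomputable def ZZ (x : EuclideanSpace ℝ (Fin (p + 1))) : ℝ := D.uu x ^ p * D.KK x

lemma DD_ZZ (hp : 1 ≤ p) : DU D.UU D.ZZ (fun x => p * x 0 / D.uu x ^ 2 * D.ZZ x)
    (fun x => D.ZZ x * (p * D.aa x * D.hh x ^ 2 / D.uu x ^ 2 + D.kk x)) := by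
  have h := ((D.DD_uu).pow p).mul (D.DD_KK hp)
  refine DU.congr (F := D.ZZ) h (fun x hx => ?_) (fun x hx => ?_)
  · have h1 := uu_pos hx
    obtain ⟨q, rfl⟩ : ∃ q, p = q + 1 := ⟨p - 1, by omega⟩
    unfold ZZ
    simp only [Nat.add_sub_cancel]
    field_simp
    ring
  · have h1 := uu_pos hx
    obtain ⟨q, rfl⟩ : ∃ q, p = q + 1 := ⟨p - 1, by omega⟩
    unfold ZZ
    simp only [Nat.add_sub_cancel]
    field_simp
    ring

lemma DD_w (hp : 1 ≤ p) : DU D.UU (fun x => D.uu x ^ (p + 2) * D.KK x)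
    (fun x => ((p : ℝ) + 2) * x 0 * D.ZZ x)
    (fun x => D.ZZ x * (((p : ℝ) + 2) * D.aa x * D.hh x ^ 2 + D.uu x ^ 2 * D.kk x)) := by
  have h := ((D.DD_uu).pow (p + 2)).mul (D.DD_KK hp)
  refine DU.congr (F := fun x => D.uu x ^ (p + 2) * D.KK x) h (fun x hx => ?_) (fun x hx => ?_)
  · have h1 := uu_pos hx
    unfold ZZ
    simp only [show p + 2 - 1 = p + 1 by omega]
    push_cast
    field_simp
    ring
  · have h1 := uu_pos hx
    unfold ZZ
    simp only [show p + 2 - 1 = p + 1 by omega]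
    push_cast
    field_simp
    ring

/-- `w_{yρ}` -/
noncomputable def w3 (x : EuclideanSpace ℝ (Fin (p + 1))) : ℝ :=
  ((p : ℝ) + 2) * x 0 * D.ZZ x * (p * D.aa x * D.hh x ^ 2 / D.uu x ^ 2 + D.kk x)

/-- `w_{yy}` -/
noncomputable def w4 (x : EuclideanSpace ℝ (Fin (p + 1))) : ℝ :=
  ((p : ℝ) + 2) * D.ZZ x * (1 + p * x 0 ^ 2 / D.uu x ^ 2)

/-- `w_ρ` -/
noncomputable def w1 (x : EuclideanSpace ℝ (Fin (p + 1))) : ℝ :=
  D.ZZ x * (((p : ℝ) + 2) * D.aa x * D.hh x ^ 2 + D.uu x ^ 2 * D.kk x)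

/-- `w_{ρρ}` -/
noncomputable def w2 (x : EuclideanSpace ℝ (Fin (p + 1))) : ℝ :=
  D.ZZ x * ((p * D.aa x * D.hh x ^ 2 / D.uu x ^ 2 + D.kk x) *
      (((p : ℝ) + 2) * D.aa x * D.hh x ^ 2 + D.uu x ^ 2 * D.kk x)
    + ((p : ℝ) + 2) * (D.aa x * D.bb x + D.aa x ^ 2) * D.hh x ^ 2
    + 2 * D.aa x * D.hh x ^ 2 * D.kk x + D.uu x ^ 2 * D.kk' x)

lemma DD_w_α (hp : 1 ≤ p) : DU D.UU (fun x => ((p : ℝ) + 2) * x 0 * D.ZZ x) D.w4 D.w3 := by
  have h := (((DD.const (p := p) ((p : ℝ) + 2)).mul DD.y).toDU).mul (D.DD_ZZ hp)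
  refine DU.congr (F := fun x => ((p : ℝ) + 2) * x 0 * D.ZZ x) h (fun x hx => ?_) (fun x hx => ?_)
  · have h1 := uu_pos hx
    unfold w4
    field_simp
    ring
  · unfold w3
    ring

lemma DD_w_β (hp : 1 ≤ p) : DU D.UU D.w1 D.w3 D.w2 := by
  have h := (D.DD_ZZ hp).mul (((((DD.const (p := p) ((p : ℝ) + 2)).toDU).mul (D.DD_aa)).mul
    ((D.DD_hh).pow 2)).add (((D.DD_uu).pow 2).mul (D.DD_kk)))
  refine DU.congr (F := D.w1) h (fun x hx => ?_) (fun x hx => ?_)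
  · have h1 := uu_pos hx
    unfold w3
    field_simp
    simp only [Nat.cast_ofNat, Nat.add_one_sub_one, pow_one, zero_mul, zero_add]
    ring
  · have h1 := uu_pos hx
    unfold w2
    simp only [show 2 - 1 = 1 from rfl, pow_one, Nat.cast_ofNat]
    field_simp
    ring

lemma hess_w (hp : 1 ≤ p) (hx : x ∈ D.UU) :
    hess (wfun D.uu) x = Mx (fun i => x i.succ) (D.w4 x) (D.w3 x) (D.w1 x) (D.w2 x) := by
  have e : wfun D.uu =ᶠ[𝓝 x] fun x => D.uu x ^ (p + 2) * D.KK x := by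
    filter_upwards [D.isOpen_UU.mem_nhds hx] with y hy using D.wfun_uu hy
  rw [hess_congr e]
  exact hess_of_DU D.isOpen_UU (D.DD_w hp) (D.DD_w_α hp) (D.DD_w_β hp) x hx

lemma inv_uu (hx : x ∈ D.UU) :
    (hess D.uu x)⁻¹ = Mx (fun i => x i.succ)
      (D.uu x ^ 3 / D.hh x ^ 2 + D.aa x * (x 0) ^ 2 * (2 * rho x) * D.uu x /
        (D.hh x ^ 2 * (1 + 2 * rho x * D.bb x)))
      (x 0 * D.uu x / (D.hh x ^ 2 * (1 + 2 * rho x * D.bb x)))
      (D.uu x / (D.aa x * D.hh x ^ 2))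
      (-(D.bb x * D.uu x / (D.aa x * D.hh x ^ 2 * (1 + 2 * rho x * D.bb x)))) := by
  apply Matrix.inv_eq_right_inv
  rw [D.hess_uu hx]
  have h1 := uu_pos hx
  have h2 := hh_pos hx
  have h3 := aa_pos hx
  have h4 := (pos1' hx).ne'
  apply Mx_mul_inv _ _ _ _ _ _ _ _ _ (2 * rho x) (sum_sq_eq x)
  · field_simp
    ring
  · field_simp
    ring
  · field_simp
    ring
  · field_simp
  · field_simp
    ring

/-- The affine maximal equation at a point implies the ODE at `ρ = rho x`. -/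
lemma ode_of_am (hp : 1 ≤ p) (hx : x ∈ D.UU)
    (ham : ∑ i, ∑ j, ((hess D.uu x).det * (hess D.uu x)⁻¹ i j) *
      pd i (pd j (wfun D.uu)) x = 0) :
    ((p : ℝ) - 1) * (1 + D.bb x * (2 * rho x)) * (D.kk x + (p + 2) * D.aa x)
      + (D.kk x + (p + 2) * D.aa x)
      + 2 * rho x * (D.kk' x + (p + 2) * D.aa x * (D.bb x - D.aa x)
        + (D.kk x + (p + 2) * D.aa x) ^ 2)
      + (p + 2) * D.aa x * (1 + D.bb x * (2 * rho x)) = 0 := by
  have e0 : ∀ i j, pd i (pd j (wfun D.uu)) x = hess (wfun D.uu) x i j := fun i j => rfl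
  have hdet : 0 < (hess D.uu x).det := by
    rw [D.det_uu hx]
    have h1 := uu_pos hx
    have h2 := GG_pos hx
    positivity
  simp only [e0, D.inv_uu hx, D.hess_w hp hx] at ham
  rw [Mx_trace _ _ _ _ _ _ _ _ _ (2 * rho x) (sum_sq_eq x)] at ham
  have h1 := uu_pos hx
  have h2 := hh_pos hx
  have h3 := aa_pos hx
  have h4 := pos1' hx
  have hK := KK_pos hx
  have hZ : 0 < D.ZZ x := by unfold ZZ; positivity
  have h5 := am_identity (p : ℝ) (rho x) (D.aa x) (D.bb x) (D.uu x) (D.hh x) (x 0) (D.ZZ x)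
    (D.kk x) (D.kk' x) h1.ne' (uu_sq (D := D) x)
  have h6 := (mul_eq_zero.1 ham).resolve_left hdet.ne'
  have h7 : (D.uu x / (D.aa x * D.hh x ^ 2 * (1 + 2 * rho x * D.bb x))) *
    (D.aa x * (D.uu x ^ 2 * (1 + D.bb x * (2 * rho x)) + D.aa x * x 0 ^ 2 * (2 * rho x)) *
        (((p : ℝ) + 2) * D.ZZ x * (1 + p * x 0 ^ 2 / D.uu x ^ 2))
      + 2 * D.aa x * x 0 * (2 * rho x) * (((p : ℝ) + 2) * x 0 * D.ZZ x *
        (p * D.aa x * D.hh x ^ 2 / D.uu x ^ 2 + D.kk x))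
      + ((p : ℝ) - 1) * (1 + D.bb x * (2 * rho x)) * (D.ZZ x * (((p : ℝ) + 2) * D.aa x
        * D.hh x ^ 2 + D.uu x ^ 2 * D.kk x))
      + (D.ZZ x * (((p : ℝ) + 2) * D.aa x * D.hh x ^ 2 + D.uu x ^ 2 * D.kk x) + (2 * rho x) *
        (D.ZZ x * ((p * D.aa x * D.hh x ^ 2 / D.uu x ^ 2 + D.kk x) *
          (((p : ℝ) + 2) * D.aa x * D.hh x ^ 2 + D.uu x ^ 2 * D.kk x)
          + ((p : ℝ) + 2) * (D.aa x * D.bb x + D.aa x ^ 2) * D.hh x ^ 2
          + 2 * D.aa x * D.hh x ^ 2 * D.kk x + D.uu x ^ 2 * D.kk' x)))) = 0 := by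
    rw [← h6]
    change _ * (_ * D.w4 x + 2 * D.aa x * x 0 * (2 * rho x) * D.w3 x +
      _ * D.w1 x + (D.w1 x + (2 * rho x) * D.w2 x)) =
      (_ * D.w4 x + _ * D.w3 x * _ + _ * D.w1 x + _ * _)
    have h8 := h4.ne'
    field_simp
    ring
  rw [h5] at h7
  have hfac : (D.uu x / (D.aa x * D.hh x ^ 2 * (1 + 2 * rho x * D.bb x))) ≠ 0 := by
    have : 0 < D.uu x / (D.aa x * D.hh x ^ 2 * (1 + 2 * rho x * D.bb x)) := by positivity
    exact this.ne'
  have h9 := (mul_eq_zero.1 h7).resolve_left hfac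
  have hZU : D.ZZ x * D.uu x ^ 2 ≠ 0 := by positivity
  exact (mul_eq_zero.1 h9).resolve_left hZU

end LocData

end Vale.Agent.P252
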