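import Vale.Agent.P252.MathlibUsed
import Vale.Agent.P252.Defs
import Vale.Agent.P252.Bdl.B1
import Vale.Agent.P252.H47.Loc

/-! The first integral of the reduced ODE. -/

open scoped ContDiff Topology
open Filter

namespace Vale.Agent.P252

/-- logarithmic derivative -/
def LD (f : ℝ → ℝ) (g ρ : ℝ) : Prop := HasDerivAt f (f ρ * g) ρ

lemma LD.mul {f f₂ : ℝ → ℝ} {g g₂ ρ : ℝ} (h : LD f g ρ) (h₂ : LD f₂ g₂ ρ) :
    LD (fun x => f x * f₂ x) (g + g₂) ρ := by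
  unfold LD at *
  refine (h.fun_mul h₂).congr_deriv ?_
  ring

lemma LD.pow {f : ℝ → ℝ} {g ρ : ℝ} (h : LD f g ρ) (n : ℕ) :
    LD (fun x => f x ^ n) (n * g) ρ := by
  induction n with
  | zero =>
    unfold LD
    simp only [pow_zero, Nat.cast_zero, zero_mul, mul_zero]
    exact hasDerivAt_const _ _
  | succ n ih =>
    have := ih.mul h
    unfold LD at *
    simp only [pow_succ]
    refine this.congr_deriv ?_
    push_cast
    ring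

lemma LD.rpow {f : ℝ → ℝ} {g ρ : ℝ} (h : LD f g ρ) (c : ℝ) (hf : 0 < f ρ) :
    LD (fun x => f x ^ c) (c * g) ρ := by
  unfold LD at *
  have h1 := h.rpow_const (p := c) (Or.inl hf.ne')
  refine h1.congr_deriv ?_
  rw [Real.rpow_sub_one hf.ne']
  field_simp

namespace LocData

variable {p : ℕ} (D : LocData p)

/-- radial factor of the determinant as a function of `ρ` -/
noncomputable def Gr (ρ : ℝ) : ℝ := D.a ρ ^ p * D.η ρ ^ (2 * p + 2) * (1 + 2 * ρ * D.b ρ)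

/-- `K` as a function of `ρ` -/
noncomputable def Kr (ρ : ℝ) : ℝ := D.Gr ρ ^ (-th p)

/-- `k` as a function of `ρ` -/
noncomputable def kr (ρ : ℝ) : ℝ := kL p D.a D.b D.b' ρ

/-- the quantity `J` -/
noncomputable def Jr (ρ : ℝ) : ℝ :=
  D.kr ρ * (p + 4 * ρ * D.a ρ) + (p + 2) * ((p + 1) * D.a ρ + 4 * ρ * D.a ρ ^ 2
    + 4 * ρ * D.a ρ * D.b ρ)

/-- the first integral -/
noncomputable def Tr (ρ : ℝ) : ℝ :=
  ρ ^ p * D.Kr ρ ^ 2 * D.a ρ ^ (2 * (p - 1)) * D.η ρ ^ (4 * p + 4) * D.Jr ρ ^ 2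

lemma Gr_pos {ρ : ℝ} (hρ : ρ ∈ D.I) : 0 < D.Gr ρ := by
  unfold Gr
  have h1 := D.a_pos ρ hρ
  have h2 := D.η_pos ρ hρ
  have h3 := D.pos1 ρ hρ
  positivity

lemma Kr_pos {ρ : ℝ} (hρ : ρ ∈ D.I) : 0 < D.Kr ρ := Real.rpow_pos_of_pos (D.Gr_pos hρ) _

lemma KK_eq (x : EuclideanSpace ℝ (Fin (p + 1))) : D.KK x = D.Kr (rho x) := rfl

lemma LD_Kr {ρ : ℝ} (hρ : ρ ∈ D.I) : LD D.Kr (D.kr ρ) ρ := by
  have hη : LD D.η (D.a ρ) ρ := by
    unfold LD; rw [mul_comm]; exact D.hη ρ hρ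
  have ha : LD D.a (D.b ρ - D.a ρ) ρ := D.ha ρ hρ
  have hX : LD (fun ρ => 1 + 2 * ρ * D.b ρ) ((2 * ρ * D.b' ρ + 2 * D.b ρ) / (1 + 2 * ρ * D.b ρ))
      ρ := by
    unfold LD
    have h1 := (((hasDerivAt_id ρ).const_mul 2).fun_mul (D.hb ρ hρ)).const_add 1
    refine h1.congr_deriv ?_
    have := (D.pos1 ρ hρ).ne'
    rw [mul_div_cancel₀ _ this]
    simp only [id]
    ring
  have h := ((ha.pow p).mul (hη.pow (2 * p + 2))).mul hX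
  have h2 := LD.rpow h (-th p) (D.Gr_pos hρ)
  unfold LD at *
  refine h2.congr_deriv ?_
  unfold kr kL Kr Gr
  push_cast
  rfl

/-- relation between `b'` and `k` -/
lemma rel_b' {ρ : ℝ} (hρ : ρ ∈ D.I) :
    (p + 2) * (2 * ρ * D.b' ρ + 2 * D.b ρ) + (1 + 2 * ρ * D.b ρ) * ((p + 3) * D.kr ρ
      + (p + 2) * (p * (D.b ρ - D.a ρ) + (2 * p + 2) * D.a ρ)) = 0 := by
  have h3 := (D.pos1 ρ hρ).ne'
  have hp3 : (p : ℝ) + 3 ≠ 0 := by positivity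
  unfold kr kL th
  field_simp
  ring

lemma LD_Jr {ρ : ℝ} (hρ : ρ ∈ D.I) (h0 : 0 < ρ)
    (hode : ((p : ℝ) - 1) * (1 + D.b ρ * (2 * ρ)) * (D.kr ρ + (p + 2) * D.a ρ)
      + (D.kr ρ + (p + 2) * D.a ρ)
      + 2 * ρ * (D.k' ρ + (p + 2) * D.a ρ * (D.b ρ - D.a ρ) + (D.kr ρ + (p + 2) * D.a ρ) ^ 2)
      + (p + 2) * D.a ρ * (1 + D.b ρ * (2 * ρ)) = 0) :
    LD D.Jr (-(p + 2 * ρ * (D.kr ρ + (p - 1) * D.b ρ + (p + 3) * D.a ρ)) / (2 * ρ)) ρ := by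
  unfold LD
  have hk : HasDerivAt D.kr (D.k' ρ) ρ := D.hk ρ hρ
  have ha := D.ha ρ hρ
  have hb := D.hb ρ hρ
  have hid := hasDerivAt_id ρ
  have h1 := hk.fun_mul ((((hid.const_mul 4).fun_mul ha)).const_add (p : ℝ))
  have h2 := (((ha.const_mul ((p : ℝ) + 1)).add ((hid.const_mul 4).fun_mul (ha.fun_pow 2))).add
    (((hid.const_mul 4).fun_mul ha).fun_mul hb)).const_mul ((p : ℝ) + 2)
  have h3 := h1.fun_add h2
  have e : D.Jr = fun x => D.kr x * (↑p + 4 * id x * D.a x) +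
      (↑p + 2) * ((↑p + 1) * D.a x + 4 * id x * D.a x ^ 2 + 4 * id x * D.a x * D.b x) := by
    funext x; rfl
  rw [e]
  refine HasDerivAt.congr_deriv h3 ?_
  have hrel := D.rel_b' hρ
  simp only [id, Nat.cast_ofNat, Nat.add_one_sub_one, pow_one, mul_one]
  have h2ρ : (2 * ρ) ≠ 0 := by positivity
  field_simp
  linear_combination (p + 4 * ρ * D.a ρ) * hode + 4 * ρ * D.a ρ * hrel

lemma deriv_Tr (hp : 1 ≤ p) {ρ : ℝ} (hρ : ρ ∈ D.I) (h0 : 0 < ρ)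
    (hode : ((p : ℝ) - 1) * (1 + D.b ρ * (2 * ρ)) * (D.kr ρ + (p + 2) * D.a ρ)
      + (D.kr ρ + (p + 2) * D.a ρ)
      + 2 * ρ * (D.k' ρ + (p + 2) * D.a ρ * (D.b ρ - D.a ρ) + (D.kr ρ + (p + 2) * D.a ρ) ^ 2)
      + (p + 2) * D.a ρ * (1 + D.b ρ * (2 * ρ)) = 0) :
    HasDerivAt D.Tr 0 ρ := by
  have hη : LD D.η (D.a ρ) ρ := by
    unfold LD; rw [mul_comm]; exact D.hη ρ hρ
  have ha : LD D.a (D.b ρ - D.a ρ) ρ := D.ha ρ hρ
  have hid : LD (fun x : ℝ => x) (1 / ρ) ρ := by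
    unfold LD
    refine (hasDerivAt_id' ρ).congr_deriv ?_
    field_simp
  have h := ((((hid.pow p).mul ((D.LD_Kr hρ).pow 2)).mul (ha.pow (2 * (p - 1)))).mul
    (hη.pow (4 * p + 4))).mul ((D.LD_Jr hρ h0 hode).pow 2)
  unfold LD at h
  refine HasDerivAt.congr_deriv h ?_
  apply mul_eq_zero_of_right
  obtain ⟨q, rfl⟩ : ∃ q, p = q + 1 := ⟨p - 1, by omega⟩
  simp only [Nat.add_sub_cancel]
  push_cast
  field_simp
  ring

/-- the reduced first-order equation when the first integral vanishes -/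
lemma heq_of_Jr {ρ : ℝ} (hρ : ρ ∈ D.I) (hJ : D.Jr ρ = 0) :
    (p + 4 * ρ * D.a ρ) * (2 * ρ * D.b' ρ + 2 * D.b ρ)
      = (1 + 2 * ρ * D.b ρ) * ((2 * p + 3) * D.a ρ - (p : ℝ) ^ 2 * D.b ρ
        + 4 * ρ * (D.a ρ) ^ 2 + 12 * ρ * D.a ρ * D.b ρ) := by
  have hrel := D.rel_b' hρ
  unfold Jr at hJ
  have hp2 : (p : ℝ) + 2 ≠ 0 := by positivity
  apply mul_left_cancel₀ hp2
  linear_combination (p + 4 * ρ * D.a ρ) * hrel - (1 + 2 * ρ * D.b ρ) * (p + 3) * hJ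

end LocData

end Vale.Agent.P252
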