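import Vale.Agent.P252.MathlibUsed
import Vale.Agent.P252.Defs
import Vale.Agent.P252.Bdl.B1
import Vale.Agent.P252.H47.Fi

/-! The phase-plane argument: for `2 ≤ p ≤ 8` the regular orbit leaves every compact set and the
profile stays bounded up to a finite boundary value. -/

open scoped ContDiff Topology
open Filter Set

namespace Vale.Agent.P252

lemma mono_of_hasDeriv {f f' : ℝ → ℝ} {a b : ℝ} (hab : a ≤ b)
    (hd : ∀ t ∈ Icc a b, HasDerivAt f (f' t) t) (h : ∀ t ∈ Icc a b, 0 ≤ f' t) : f a ≤ f b := by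
  have hm : MonotoneOn f (Icc a b) := by
    apply monotoneOn_of_deriv_nonneg (convex_Icc a b)
    · exact fun t ht => (hd t ht).continuousAt.continuousWithinAt
    · intro t ht
      rw [interior_Icc] at ht
      exact (hd t (Ioo_subset_Icc_self ht)).differentiableAt.differentiableWithinAt
    · intro t ht
      rw [interior_Icc] at ht
      rw [(hd t (Ioo_subset_Icc_self ht)).deriv]
      exact h t (Ioo_subset_Icc_self ht)
  exact hm (left_mem_Icc.2 hab) (right_mem_Icc.2 hab) hab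

lemma smono_of_hasDeriv {f f' : ℝ → ℝ} {a b : ℝ} (hab : a < b)
    (hd : ∀ t ∈ Icc a b, HasDerivAt f (f' t) t) (h : ∀ t ∈ Icc a b, 0 < f' t) : f a < f b := by
  have hm : StrictMonoOn f (Icc a b) := by
    apply strictMonoOn_of_deriv_pos (convex_Icc a b)
    · exact fun t ht => (hd t ht).continuousAt.continuousWithinAt
    · intro t ht
      rw [interior_Icc] at ht
      rw [(hd t (Ioo_subset_Icc_self ht)).deriv]
      exact h t (Ioo_subset_Icc_self ht)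
  exact hm (left_mem_Icc.2 hab.le) (right_mem_Icc.2 hab.le) hab

lemma fwd {f f' : ℝ → ℝ} {a b c : ℝ} (hab : a ≤ b)
    (hd : ∀ t ∈ Icc a b, HasDerivAt f (f' t) t) (hb : ∀ t ∈ Icc a b, f t = c → 0 < f' t)
    (ha : c < f a) : c < f b := by
  have hle : ∀ ⦃t⦄, t ∈ Icc a b → c ≤ f t :=
    image_le_of_deriv_right_lt_deriv_boundary' (f := fun _ => c) (f' := fun _ => 0)
      continuousOn_const (fun t _ => hasDerivWithinAt_const _ _ _) ha.le
      (fun t ht => (hd t ht).continuousAt.continuousWithinAt)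
      (fun t ht => (hd t (Ico_subset_Icc_self ht)).hasDerivWithinAt)
      (fun t ht h => hb t (Ico_subset_Icc_self ht) h.symm)
  by_contra hcon
  have hbm : b ∈ Icc a b := right_mem_Icc.2 hab
  have hfb : f b = c := le_antisymm (not_lt.1 hcon) (hle hbm)
  have hpos := hb b hbm hfb
  have hab' : a < b := by
    rcases hab.lt_or_eq with h | h
    · exact h
    · rw [h, hfb] at ha
      exact absurd ha (lt_irrefl _)
  have hs := hasDerivAt_iff_tendsto_slope.1 (hd b hbm)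
  have hs2 : Tendsto (slope f b) (𝓝[<] b) (𝓝 (f' b)) :=
    hs.mono_left (nhdsWithin_mono _ (fun x hx => ne_of_lt hx))
  have hev : ∀ᶠ t in 𝓝[<] b, slope f b t ≤ 0 := by
    filter_upwards [Ioo_mem_nhdsLT hab'] with t ht
    rw [slope_def_field]
    apply div_nonpos_of_nonneg_of_nonpos
    · rw [hfb]
      have := hle ⟨ht.1.le, ht.2.le⟩
      linarith only [this]
    · linarith only [ht.2]
  have := le_of_tendsto hs2 hev
  linarith only [this, hpos]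

/-- the numerator of the `X`-equation -/
def Nf (p Q X : ℝ) : ℝ := (2 * p + 3) * Q + 2 * Q ^ 2 + (6 * Q - p ^ 2) * (X - 1)

lemma disc_neg (p : ℕ) (hp2 : 2 ≤ p) (hp8 : p ≤ 8) :
    ((p:ℝ) ^ 2 - 2 * p + 9 - 6 / 100 + p / 100) ^ 2 < 4 * (8 - 2 / 100) * ((p:ℝ) ^ 2 * (2 - 1 / 100)) := by
  interval_cases p <;> norm_num

lemma quad_pos (p : ℕ) (hp2 : 2 ≤ p) (hp8 : p ≤ 8) (Q : ℝ) :
    0 < (8 - 2 / 100) * Q ^ 2 - ((p:ℝ) ^ 2 - 2 * p + 9 - 6 / 100 + p / 100) * Q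
      + (p:ℝ) ^ 2 * (2 - 1 / 100) := by
  have h := disc_neg p hp2 hp8
  have h2 := sq_nonneg (2 * (8 - 2 / 100) * Q - ((p:ℝ) ^ 2 - 2 * p + 9 - 6 / 100 + p / 100))
  nlinarith only [h, h2]

section

variable {p : ℕ} (hp2 : 2 ≤ p) (hp8 : p ≤ 8) {I : Set ℝ} (hI0 : ∀ ρ ∈ I, 0 < ρ)
  (hIc : ∀ ρ ∈ I, ∀ σ, 0 < σ → σ ≤ ρ → σ ∈ I) {Q X : ℝ → ℝ}
  (hQ : ∀ ρ ∈ I, HasDerivAt Q (Q ρ * (1 + X ρ - Q ρ) / (2 * ρ)) ρ)
  (hX : ∀ ρ ∈ I, HasDerivAt X (X ρ * Nf p (Q ρ) (X ρ) / ((p + 2 * Q ρ) * (2 * ρ))) ρ)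
  (hQpos : ∀ ρ ∈ I, 0 < Q ρ) (hXpos : ∀ ρ ∈ I, 0 < X ρ)
  (hQ0 : Tendsto Q (𝓝[>] 0) (𝓝 0)) (hX0 : Tendsto X (𝓝[>] 0) (𝓝 1))

include hp2 hI0 hIc hX hQpos hXpos hQ0 hX0 in
lemma X_gt_one : ∀ ρ ∈ I, 1 < X ρ := by
  have hpR : (2:ℝ) ≤ p := by exact_mod_cast hp2
  intro ρ₀ hρ₀
  have hρ₀0 := hI0 ρ₀ hρ₀
  -- a small `ρ₁`
  have hev : ∀ᶠ ρ in 𝓝[>] (0:ℝ), Q ρ < 1 / 2 := hQ0.eventually (gt_mem_nhds (by norm_num))
  obtain ⟨ε, hε, hεQ⟩ := mem_nhdsGT_iff_exists_Ioo_subset.1 hev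
  have hε0 : (0:ℝ) < ε := hε
  set ρ₁ := min (ε / 2) ρ₀ with hρ₁
  have hρ₁0 : 0 < ρ₁ := by positivity
  have hρ₁le : ρ₁ ≤ ρ₀ := min_le_right _ _
  have hρ₁ε : ρ₁ < ε := lt_of_le_of_lt (min_le_left _ _) (by linarith only [hε0])
  have hρ₁I : ρ₁ ∈ I := hIc ρ₀ hρ₀ ρ₁ hρ₁0 hρ₁le
  have hin : ∀ a b, 0 < a → b ≤ ρ₀ → ∀ t ∈ Icc a b, t ∈ I := fun a b ha hb t ht =>
    hIc ρ₀ hρ₀ t (lt_of_lt_of_le ha ht.1) (ht.2.trans hb)
  have hfwd : ∀ a b, 0 < a → a ≤ b → b ≤ ρ₀ → 1 < X a → 1 < X b := by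
    intro a b ha hab hb h1
    refine fwd hab (fun t ht => hX t (hin a b ha hb t ht)) (fun t ht h => ?_) h1
    have htI := hin a b ha hb t ht
    have h2 := hQpos t htI
    have h3 := hI0 t htI
    unfold Nf
    rw [h]
    have : 0 < (2 * (p:ℝ) + 3) * Q t + 2 * Q t ^ 2 + (6 * Q t - (p:ℝ) ^ 2) * (1 - 1) := by
      rw [sub_self, mul_zero, add_zero]
      positivity
    positivity
  have hX1 : 1 < X ρ₁ := by
    by_contra hcon
    have hcon' : X ρ₁ ≤ 1 := not_lt.1 hcon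
    have hle : ∀ σ, 0 < σ → σ ≤ ρ₁ → X σ ≤ 1 := by
      intro σ h0 h1
      by_contra h2
      exact hcon (hfwd σ ρ₁ h0 h1 hρ₁le (not_le.1 h2))
    have hder : ∀ a b, 0 < a → b ≤ ρ₁ → ∀ t ∈ Icc a b,
        0 < X t * Nf p (Q t) (X t) / ((p + 2 * Q t) * (2 * t)) := by
      intro a b ha hb t ht
      have htI := hin a b ha (hb.trans hρ₁le) t ht
      have h2 := hQpos t htI
      have h3 := hI0 t htI
      have h4 := hXpos t htI
      have h5 : Q t < 1 / 2 := hεQ ⟨h3, lt_of_le_of_lt (ht.2.trans hb) hρ₁ε⟩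
      have h6 := hle t h3 (ht.2.trans hb)
      have : 0 < Nf p (Q t) (X t) := by
        unfold Nf
        have h7 : 0 ≤ ((p:ℝ) ^ 2 - 6 * Q t) * (1 - X t) := by
          apply mul_nonneg
          · nlinarith only [h5, hpR]
          · linarith only [h6]
        have h8 : 0 < (2 * (p:ℝ) + 3) * Q t + 2 * Q t ^ 2 := by positivity
        linarith only [h7, h8]
      positivity
    have hs : X (ρ₁ / 2) < X ρ₁ := smono_of_hasDeriv (by linarith only [hρ₁0])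
      (fun t ht => hX t (hin (ρ₁ / 2) ρ₁ (by positivity) hρ₁le t ht))
      (hder (ρ₁ / 2) ρ₁ (by positivity) le_rfl)
    have hlim : (1:ℝ) ≤ X (ρ₁ / 2) := by
      apply le_of_tendsto hX0
      filter_upwards [Ioo_mem_nhdsGT (show (0:ℝ) < ρ₁ / 2 by positivity)] with σ hσ
      exact mono_of_hasDeriv hσ.2.le
        (fun t ht => hX t (hin σ (ρ₁ / 2) hσ.1 (by linarith only [hρ₁0, hρ₁le]) t ht))
        (fun t ht => (hder σ (ρ₁ / 2) hσ.1 (by linarith only [hρ₁0]) t ht).le)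
    linarith only [hs, hlim, hcon']
  exact hfwd ρ₁ ρ₀ hρ₁0 hρ₁le le_rfl hX1

include hp2 hp8 hI0 hIc hQ hX hQpos hXpos hQ0 hX0 in
lemma E_gt : ∀ ρ ∈ I, 1 / 100 < 1 + X ρ - Q ρ := by
  have hX1 := X_gt_one hp2 hI0 hIc hX hQpos hXpos hQ0 hX0
  intro ρ₀ hρ₀
  have hρ₀0 := hI0 ρ₀ hρ₀
  have hE0 : Tendsto (fun ρ => 1 + X ρ - Q ρ) (𝓝[>] 0) (𝓝 (1 + 1 - 0)) :=
    (hX0.const_add 1).sub hQ0
  have hev : ∀ᶠ ρ in 𝓝[>] (0:ℝ), 1 / 100 < 1 + X ρ - Q ρ :=
    hE0.eventually (lt_mem_nhds (by norm_num))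
  obtain ⟨σ, hσ1, hσ2⟩ := (hev.and (Ioo_mem_nhdsGT hρ₀0)).exists
  have hin : ∀ t ∈ Icc σ ρ₀, t ∈ I := fun t ht =>
    hIc ρ₀ hρ₀ t (lt_of_lt_of_le hσ2.1 ht.1) ht.2
  refine fwd (f := fun ρ => 1 + X ρ - Q ρ) hσ2.2.le
    (fun t ht => ((hX t (hin t ht)).const_add 1).fun_sub (hQ t (hin t ht))) (fun t ht h => ?_) hσ1
  have htI := hin t ht
  have h2 := hQpos t htI
  have h3 := hI0 t htI
  have h4 := hX1 t htI
  have hp0 : (0:ℝ) < p := by
    have : (2:ℝ) ≤ p := by exact_mod_cast hp2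
    linarith only [this]
  have hXt : X t = Q t - 1 + 1 / 100 := by linarith only [h]
  have hN : 1 / 100 * Q t * (p + 2 * Q t) < Nf p (Q t) (X t) := by
    have := quad_pos p hp2 hp8 (Q t)
    unfold Nf
    rw [hXt]
    nlinarith only [this]
  have hN0 : 0 < Nf p (Q t) (X t) := lt_of_le_of_lt (by positivity) hN
  have h5 : 1 / 100 * Q t * (p + 2 * Q t) < X t * Nf p (Q t) (X t) := by
    have := mul_lt_mul_of_pos_right h4 hN0
    linarith only [this, hN]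
  rw [h, sub_pos, div_lt_div_iff₀ (by positivity) (by positivity)]
  have h6 := mul_lt_mul_of_pos_right h5 (show (0:ℝ) < 2 * t by positivity)
  calc Q t * (1 / 100) * ((p + 2 * Q t) * (2 * t))
      = 1 / 100 * Q t * (p + 2 * Q t) * (2 * t) := by ring
    _ < X t * Nf p (Q t) (X t) * (2 * t) := h6

include hp2 hp8 hI0 hIc hQ hX hQpos hXpos hQ0 hX0 in
lemma Q_mono : ∀ ρ ∈ I, ∀ σ ∈ I, σ ≤ ρ → Q σ ≤ Q ρ := by
  have hE := E_gt hp2 hp8 hI0 hIc hQ hX hQpos hXpos hQ0 hX0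
  intro ρ hρ σ hσ hle
  have hin : ∀ t ∈ Icc σ ρ, t ∈ I := fun t ht =>
    hIc ρ hρ t (lt_of_lt_of_le (hI0 σ hσ) ht.1) ht.2
  refine mono_of_hasDeriv hle (fun t ht => hQ t (hin t ht)) (fun t ht => ?_)
  have h1 := hQpos t (hin t ht)
  have h2 := hE t (hin t ht)
  have h3 := hI0 t (hin t ht)
  have : 0 < 1 + X t - Q t := by linarith only [h2]
  positivity

include hp2 hp8 hI0 hIc hQ hX hQpos hXpos hQ0 hX0 in
/-- the orbit does not exist for all `ρ > 0` -/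
theorem not_global : ¬ ∀ ρ, 0 < ρ → ρ ∈ I := by
  intro hall
  have hX1 := X_gt_one hp2 hI0 hIc hX hQpos hXpos hQ0 hX0
  have hE := E_gt hp2 hp8 hI0 hIc hQ hX hQpos hXpos hQ0 hX0
  have hmono := Q_mono hp2 hp8 hI0 hIc hQ hX hQpos hXpos hQ0 hX0
  have hp0 : (0:ℝ) < p := by
    have : (2:ℝ) ≤ p := by exact_mod_cast hp2
    linarith only [this]
  -- growth of `Q`
  have hgrow : ∀ ρ, 1 ≤ ρ → Real.log (Q 1) + 1 / 200 * Real.log ρ ≤ Real.log (Q ρ) := by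
    intro ρ hρ
    have hd : ∀ t ∈ Icc 1 ρ, HasDerivAt (fun t => Real.log (Q t) - 1 / 200 * Real.log t)
        (Q t * (1 + X t - Q t) / (2 * t) / Q t - 1 / 200 * t⁻¹) t := by
      intro t ht
      have ht0 : 0 < t := lt_of_lt_of_le one_pos ht.1
      exact ((hQ t (hall t ht0)).log (hQpos t (hall t ht0)).ne').fun_sub
        ((Real.hasDerivAt_log ht0.ne').const_mul _)
    have := mono_of_hasDeriv hρ hd (fun t ht => by
      have ht0 : 0 < t := lt_of_lt_of_le one_pos ht.1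
      have h1 := hQpos t (hall t ht0)
      have h2 := hE t (hall t ht0)
      have e : Q t * (1 + X t - Q t) / (2 * t) / Q t - 1 / 200 * t⁻¹
          = ((1 + X t - Q t) - 1 / 100) / (2 * t) := by
        field_simp
        ring
      rw [e]
      have : 0 < (1 + X t - Q t) - 1 / 100 := by linarith only [h2]
      positivity)
    simp only [Real.log_one, mul_zero, sub_zero] at this
    linarith only [this]
  have hlog : Tendsto (fun ρ => Real.log (Q 1) + 1 / 200 * Real.log ρ) atTop atTop :=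
    tendsto_atTop_add_const_left _ _ (Real.tendsto_log_atTop.const_mul_atTop (by norm_num))
  obtain ⟨ρ₂, hρ₂, hρ₂1⟩ := ((hlog.eventually_ge_atTop (Real.log (((p:ℝ) ^ 2 + p) / 4))).and
    (eventually_ge_atTop 1)).exists
  have hρ₂0 : 0 < ρ₂ := lt_of_lt_of_le one_pos hρ₂1
  have hQ2 : ((p:ℝ) ^ 2 + p) / 4 ≤ Q ρ₂ := by
    have h1 := hρ₂.trans (hgrow ρ₂ hρ₂1)
    exact (Real.log_le_log_iff (by positivity) (hQpos _ (hall _ hρ₂0))).1 h1
  -- blow-up of `X`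
  have hY : ∀ ρ, ρ₂ ≤ ρ → 1 / 2 * Real.log ρ ≤ (X ρ₂ - 1)⁻¹ + 1 / 2 * Real.log ρ₂ := by
    intro ρ hρ
    have hd : ∀ t ∈ Icc ρ₂ ρ, HasDerivAt (fun t => -((X t - 1)⁻¹) - 1 / 2 * Real.log t)
        (-(-(X t * Nf p (Q t) (X t) / ((p + 2 * Q t) * (2 * t))) / (X t - 1) ^ 2)
          - 1 / 2 * t⁻¹) t := by
      intro t ht
      have ht0 : 0 < t := lt_of_lt_of_le hρ₂0 ht.1
      have h1 := hX1 t (hall t ht0)
      have h2 : X t - 1 ≠ 0 := by linarith only [h1]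
      exact ((((hX t (hall t ht0)).sub_const 1).fun_inv h2).fun_neg).fun_sub
        ((Real.hasDerivAt_log ht0.ne').const_mul _)
    have := mono_of_hasDeriv hρ hd (fun t ht => by
      have ht0 : 0 < t := lt_of_lt_of_le hρ₂0 ht.1
      have h1 := hX1 t (hall t ht0)
      have hq := hQ2.trans (hmono t (hall t ht0) ρ₂ (hall _ hρ₂0) ht.1)
      have hq0 := hQpos t (hall t ht0)
      have hx : 0 < X t - 1 := by linarith only [h1]
      have hN : (p + 2 * Q t) * (X t - 1) ^ 2 ≤ X t * Nf p (Q t) (X t) := by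
        have h5 : (p + 2 * Q t) * (X t - 1) ≤ Nf p (Q t) (X t) := by
          unfold Nf
          have h6 : 0 ≤ (4 * Q t - ((p:ℝ) ^ 2 + p)) * (X t - 1) :=
            mul_nonneg (by linarith only [hq]) hx.le
          have h7 : 0 < (2 * (p:ℝ) + 3) * Q t + 2 * Q t ^ 2 := by positivity
          linarith only [h6, h7]
        have h8 : 0 ≤ (p + 2 * Q t) * (X t - 1) := by positivity
        nlinarith only [h5, h8, hx]
      have e : -(-(X t * Nf p (Q t) (X t) / ((p + 2 * Q t) * (2 * t))) / (X t - 1) ^ 2)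
          - 1 / 2 * t⁻¹ = (X t * Nf p (Q t) (X t) - (p + 2 * Q t) * (X t - 1) ^ 2) /
            ((p + 2 * Q t) * (2 * t) * (X t - 1) ^ 2) := by
        have hx' := hx.ne'
        have hpq : (p:ℝ) + 2 * Q t ≠ 0 := by positivity
        field_simp
      rw [e]
      have : 0 ≤ X t * Nf p (Q t) (X t) - (p + 2 * Q t) * (X t - 1) ^ 2 := by linarith only [hN]
      positivity)
    have h9 : 0 < (X ρ - 1)⁻¹ := by
      have := hX1 ρ (hall ρ (lt_of_lt_of_le hρ₂0 hρ))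
      exact inv_pos.2 (by linarith only [this])
    linarith only [this, h9]
  have hlog2 : Tendsto (fun ρ => 1 / 2 * Real.log ρ) atTop atTop :=
    Real.tendsto_log_atTop.const_mul_atTop (by norm_num)
  obtain ⟨ρ, h1, h2⟩ := ((hlog2.eventually_gt_atTop ((X ρ₂ - 1)⁻¹ + 1 / 2 * Real.log ρ₂)).and
    (eventually_ge_atTop ρ₂)).exists
  have := hY ρ h2
  linarith only [this, h1]

include hp2 hp8 hI0 hIc hQ hX hQpos hXpos hQ0 hX0 in
/-- the logarithm of the profile stays bounded on a bounded interval -/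
theorem log_bounded {L : ℝ → ℝ} (hL : ∀ ρ ∈ I, HasDerivAt L (Q ρ / (2 * ρ)) ρ)
    {R : ℝ} (hR : ∀ ρ ∈ I, ρ < R) : ∃ M, ∀ ρ ∈ I, L ρ ≤ M := by
  have hX1 := X_gt_one hp2 hI0 hIc hX hQpos hXpos hQ0 hX0
  have hE := E_gt hp2 hp8 hI0 hIc hQ hX hQpos hXpos hQ0 hX0
  have hmono := Q_mono hp2 hp8 hI0 hIc hQ hX hQpos hXpos hQ0 hX0
  have hp0 : (0:ℝ) < p := by
    have : (2:ℝ) ≤ p := by exact_mod_cast hp2
    linarith only [this]
  by_cases hne : I.Nonempty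
  swap
  · exact ⟨0, fun ρ hρ => absurd ⟨ρ, hρ⟩ hne⟩
  have hLmono : ∀ ρ ∈ I, ∀ σ ∈ I, σ ≤ ρ → L σ ≤ L ρ := by
    intro ρ hρ σ hσ hle
    have hin : ∀ t ∈ Icc σ ρ, t ∈ I := fun t ht =>
      hIc ρ hρ t (lt_of_lt_of_le (hI0 σ hσ) ht.1) ht.2
    refine mono_of_hasDeriv hle (fun t ht => hL t (hin t ht)) (fun t ht => ?_)
    have h1 := hQpos t (hin t ht)
    have h3 := hI0 t (hin t ht)
    positivity
  by_cases hbig : ∃ ρ₁ ∈ I, ((p:ℝ) ^ 2 + 2 * p) / 2 ≤ Q ρ₁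
  · obtain ⟨ρ₁, hρ₁, hQ1⟩ := hbig
    have hρ₁0 := hI0 ρ₁ hρ₁
    set c := X ρ₁ / Q ρ₁ ^ 2 with hc
    have hc0 : 0 < c := by
      have h1 := hXpos ρ₁ hρ₁
      have h2 := hQpos ρ₁ hρ₁
      positivity
    -- `X ≥ c Q²`
    have hXQ : ∀ ρ ∈ I, ρ₁ ≤ ρ → c * Q ρ ^ 2 ≤ X ρ := by
      intro ρ hρ hle
      have hin : ∀ t ∈ Icc ρ₁ ρ, t ∈ I := fun t ht =>
        hIc ρ hρ t (lt_of_lt_of_le hρ₁0 ht.1) ht.2
      have hd : ∀ t ∈ Icc ρ₁ ρ, HasDerivAt (fun t => X t / Q t ^ 2)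
          ((X t * Nf p (Q t) (X t) / ((p + 2 * Q t) * (2 * t)) * Q t ^ 2
            - X t * ((2:ℕ) * Q t ^ (2 - 1) * (Q t * (1 + X t - Q t) / (2 * t)))) / (Q t ^ 2) ^ 2)
          t := by
        intro t ht
        have htI := hin t ht
        have h1 := hQpos t htI
        exact (hX t htI).fun_div ((hQ t htI).fun_pow 2) (by positivity)
      have := mono_of_hasDeriv hle hd (fun t ht => by
        have htI := hin t ht
        have h1 := hQpos t htI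
        have h2 := hXpos t htI
        have h3 := hI0 t htI
        have h4 := hX1 t htI
        have hq := hQ1.trans (hmono t htI ρ₁ hρ₁ ht.1)
        have hN : 2 * (p + 2 * Q t) * (1 + X t - Q t) ≤ Nf p (Q t) (X t) := by
          unfold Nf
          have h6 : 0 ≤ (2 * Q t - ((p:ℝ) ^ 2 + 2 * p)) * (X t - 1) :=
            mul_nonneg (by linarith only [hq]) (by linarith only [h4])
          have hp2' : (2:ℝ) ≤ p := by exact_mod_cast hp2
          have h7 : 4 ≤ Q t := by nlinarith only [hq, hp2']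
          have h8 : 0 ≤ p * (Q t - 1) := mul_nonneg hp0.le (by linarith only [h7])
          nlinarith only [h6, h7, h8, h1]
        have e : (X t * Nf p (Q t) (X t) / ((p + 2 * Q t) * (2 * t)) * Q t ^ 2
            - X t * ((2:ℕ) * Q t ^ (2 - 1) * (Q t * (1 + X t - Q t) / (2 * t)))) / (Q t ^ 2) ^ 2
            = X t * (Nf p (Q t) (X t) - 2 * (p + 2 * Q t) * (1 + X t - Q t)) /
              ((p + 2 * Q t) * (2 * t) * Q t ^ 2) := by
          have hpq : (p:ℝ) + 2 * Q t ≠ 0 := by positivity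
          simp only [Nat.cast_ofNat, Nat.add_one_sub_one, pow_one]
          field_simp
        rw [e]
        have : 0 ≤ Nf p (Q t) (X t) - 2 * (p + 2 * Q t) * (1 + X t - Q t) := by linarith only [hN]
        positivity)
      simp only [← hc] at this
      rwa [le_div_iff₀ (by have := hQpos ρ hρ; positivity)] at this
    refine ⟨L ρ₁ + c⁻¹ * (Q ρ₁)⁻¹ - 1 / 2 * c⁻¹ * Real.log ρ₁ + 1 / 2 * c⁻¹ * |Real.log R|, ?_⟩
    have hbase : ∀ ρ ∈ I, ρ₁ ≤ ρ → L ρ ≤ L ρ₁ + c⁻¹ * (Q ρ₁)⁻¹ - 1 / 2 * c⁻¹ * Real.log ρ₁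
        + 1 / 2 * c⁻¹ * |Real.log R| := by
      intro ρ hρ hle
      have hin : ∀ t ∈ Icc ρ₁ ρ, t ∈ I := fun t ht =>
        hIc ρ hρ t (lt_of_lt_of_le hρ₁0 ht.1) ht.2
      have hd : ∀ t ∈ Icc ρ₁ ρ, HasDerivAt
          (fun t => 1 / 2 * c⁻¹ * Real.log t - c⁻¹ * (Q t)⁻¹ - L t)
          (1 / 2 * c⁻¹ * t⁻¹ - c⁻¹ * (-(Q t * (1 + X t - Q t) / (2 * t)) / Q t ^ 2)
            - Q t / (2 * t)) t := by
        intro t ht
        have htI := hin t ht
        have h1 := hQpos t htI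
        have h3 := hI0 t htI
        exact (((Real.hasDerivAt_log h3.ne').const_mul _).fun_sub
          (((hQ t htI).fun_inv h1.ne').const_mul _)).fun_sub (hL t htI)
      have := mono_of_hasDeriv hle hd (fun t ht => by
        have htI := hin t ht
        have h1 := hQpos t htI
        have h3 := hI0 t htI
        have h5 := hXQ t htI ht.1
        have e : 1 / 2 * c⁻¹ * t⁻¹ - c⁻¹ * (-(Q t * (1 + X t - Q t) / (2 * t)) / Q t ^ 2)
            - Q t / (2 * t) = (1 + X t - c * Q t ^ 2) / (2 * t * c * Q t) := by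
          field_simp
          ring
        rw [e]
        have : 0 ≤ 1 + X t - c * Q t ^ 2 := by linarith only [h5]
        positivity)
      have h6 : Real.log ρ ≤ |Real.log R| :=
        (Real.log_le_log (hI0 ρ hρ) (hR ρ hρ).le).trans (le_abs_self _)
      have h7 : 0 < c⁻¹ * (Q ρ)⁻¹ := by
        have := hQpos ρ hρ
        positivity
      have h8 : 1 / 2 * c⁻¹ * Real.log ρ ≤ 1 / 2 * c⁻¹ * |Real.log R| :=
        mul_le_mul_of_nonneg_left h6 (by positivity)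
      linarith only [this, h7, h8]
    intro ρ hρ
    rcases le_total ρ₁ ρ with h | h
    · exact hbase ρ hρ h
    · exact (hLmono ρ₁ hρ₁ ρ hρ h).trans (hbase ρ₁ hρ₁ le_rfl)
  · push Not at hbig
    obtain ⟨ρ₁, hρ₁⟩ := hne
    have hρ₁0 := hI0 ρ₁ hρ₁
    set q₀ := ((p:ℝ) ^ 2 + 2 * p) / 2 with hq₀
    have hq₀0 : 0 < q₀ := by positivity
    refine ⟨L ρ₁ - q₀ / 2 * Real.log ρ₁ + q₀ / 2 * |Real.log R|, ?_⟩
    have hbase : ∀ ρ ∈ I, ρ₁ ≤ ρ → L ρ ≤ L ρ₁ - q₀ / 2 * Real.log ρ₁ + q₀ / 2 * |Real.log R| := by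
      intro ρ hρ hle
      have hin : ∀ t ∈ Icc ρ₁ ρ, t ∈ I := fun t ht =>
        hIc ρ hρ t (lt_of_lt_of_le hρ₁0 ht.1) ht.2
      have hd : ∀ t ∈ Icc ρ₁ ρ, HasDerivAt (fun t => q₀ / 2 * Real.log t - L t)
          (q₀ / 2 * t⁻¹ - Q t / (2 * t)) t := by
        intro t ht
        exact ((Real.hasDerivAt_log (hI0 t (hin t ht)).ne').const_mul _).fun_sub (hL t (hin t ht))
      have := mono_of_hasDeriv hle hd (fun t ht => by
        have h3 := hI0 t (hin t ht)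
        have h5 := hbig t (hin t ht)
        have e : q₀ / 2 * t⁻¹ - Q t / (2 * t) = (q₀ - Q t) / (2 * t) := by
          field_simp
        rw [e]
        have : 0 < q₀ - Q t := by linarith only [h5]
        positivity)
      have h6 : Real.log ρ ≤ |Real.log R| :=
        (Real.log_le_log (hI0 ρ hρ) (hR ρ hρ).le).trans (le_abs_self _)
      have h8 : q₀ / 2 * Real.log ρ ≤ q₀ / 2 * |Real.log R| :=
        mul_le_mul_of_nonneg_left h6 (by positivity)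
      linarith only [this, h8]
    intro ρ hρ
    rcases le_total ρ₁ ρ with h | h
    · exact hbase ρ hρ h
    · exact (hLmono ρ₁ hρ₁ ρ hρ h).trans (hbase ρ₁ hρ₁ le_rfl)

end

end Vale.Agent.P252
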