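import Vale.Agent.P252.MathlibUsed
import Vale.Agent.P252.Defs
import Vale.Agent.P252.BernsteinDefs
import Vale.Agent.P252.Bdl.B1
import Vale.Agent.P252.H47.Defs
import Vale.Agent.P252.H47.Complete
import Vale.Agent.P252.H47.Phase

/-! Extraction of the profile of a symmetric graph. -/

open scoped ContDiff Topology
open Filter Set

namespace Vale.Agent.P252

variable {p : ℕ}

lemma norm_sq_sub (x : EuclideanSpace ℝ (Fin (p + 1))) : ‖x‖ ^ 2 - x 0 ^ 2 = 2 * rho x := by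
  rw [EuclideanSpace.norm_sq_eq, Fin.sum_univ_succ, sum_sq_eq]
  simp only [Real.norm_eq_abs, sq_abs]
  ring

/-- the unit vector of the coordinate `i.succ` -/
noncomputable def ee (i : Fin p) : EuclideanSpace ℝ (Fin (p + 1)) :=
  EuclideanSpace.single i.succ (1 : ℝ)

lemma smul_ee_zero (i : Fin p) (s : ℝ) : (s • ee i) 0 = 0 := by
  simp [ee, (Fin.succ_ne_zero i).symm]

lemma rho_smul_ee (i : Fin p) (s : ℝ) : rho (s • ee i) = s ^ 2 / 2 := by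
  unfold rho ee
  congr 1
  simp [PiLp.single_apply]

section

variable {Ω : Set (EuclideanSpace ℝ (Fin (p + 1)))} {u : EuclideanSpace ℝ (Fin (p + 1)) → ℝ}

lemma sym_mem (hs : BoostSymmetric Ω u) {x y : EuclideanSpace ℝ (Fin (p + 1))} (hx : x ∈ Ω)
    (h : rho y = rho x) : y ∈ Ω ∧ u y ^ 2 - y 0 ^ 2 = u x ^ 2 - x 0 ^ 2 :=
  hs.2 x hx y (by rw [norm_sq_sub, norm_sq_sub, h])

variable (i : Fin p)

lemma sqrt_mem (hs : BoostSymmetric Ω u) {x : EuclideanSpace ℝ (Fin (p + 1))} (hx : x ∈ Ω) :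
    Real.sqrt (2 * rho x) • ee i ∈ Ω ∧ u (Real.sqrt (2 * rho x) • ee i) ^ 2 = u x ^ 2 - x 0 ^ 2 := by
  have h : rho (Real.sqrt (2 * rho x) • ee i) = rho x := by
    rw [rho_smul_ee, Real.sq_sqrt (by have := rho_nonneg x; positivity)]
    ring
  obtain ⟨h1, h2⟩ := sym_mem hs hx h
  rw [smul_ee_zero] at h2
  refine ⟨h1, ?_⟩
  rw [← h2]
  ring

lemma neg_mem (hs : BoostSymmetric Ω u) {s : ℝ} (hx : s • ee i ∈ Ω) :
    (-s) • ee i ∈ Ω ∧ u ((-s) • ee i) ^ 2 = u (s • ee i) ^ 2 := by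
  obtain ⟨h1, h2⟩ := sym_mem hs hx (y := (-s) • ee i) (by rw [rho_smul_ee, rho_smul_ee]; ring)
  rw [smul_ee_zero, smul_ee_zero] at h2
  refine ⟨h1, ?_⟩
  linarith only [h2]

lemma pos_on (hs : BoostSymmetric Ω u) {x : EuclideanSpace ℝ (Fin (p + 1))} (hx : x ∈ Ω) :
    0 < u x := lt_of_le_of_lt (abs_nonneg _) (hs.1 x hx)

lemma zero_mem' (hs : BoostSymmetric Ω u) (hne : Ω.Nonempty) (hc : Convex ℝ Ω) :
    (0 : ℝ) • ee i ∈ Ω := by
  obtain ⟨x, hx⟩ := hne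
  have h1 := (sqrt_mem i hs hx).1
  have h2 := (neg_mem i hs h1).1
  have h3 := hc h1 h2 (show (0:ℝ) ≤ 1 / 2 by norm_num) (show (0:ℝ) ≤ 1 / 2 by norm_num)
    (by norm_num)
  have e : (1 / 2 : ℝ) • (Real.sqrt (2 * rho x) • ee i) + (1 / 2 : ℝ) •
      ((-Real.sqrt (2 * rho x)) • ee i) = (0 : ℝ) • ee i := by
    rw [smul_smul, smul_smul, ← add_smul]
    congr 1
    ring
  rwa [e] at h3

lemma down_mem (hs : BoostSymmetric Ω u) (hne : Ω.Nonempty) (hc : Convex ℝ Ω) {s t : ℝ}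
    (hx : s • ee i ∈ Ω) (h0 : 0 ≤ t) (hts : t ≤ s) : t • ee i ∈ Ω := by
  rcases h0.lt_or_eq with h | h
  · have hs0 : 0 < s := lt_of_lt_of_le h hts
    have h1 := hc (zero_mem' i hs hne hc) hx (show (0:ℝ) ≤ 1 - t / s by
      rw [sub_nonneg, div_le_one hs0]; exact hts) (show (0:ℝ) ≤ t / s by positivity) (by ring)
    have e : (1 - t / s) • ((0 : ℝ) • ee i) + (t / s) • (s • ee i) = t • ee i := by
      rw [zero_smul, smul_zero, zero_add, smul_smul, div_mul_cancel₀ _ hs0.ne']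
    rwa [e] at h1
  · rw [← h]
    exact zero_mem' i hs hne hc

/-- the profile and its derivatives along the axis `ee i` -/
noncomputable def h0 (u : EuclideanSpace ℝ (Fin (p + 1)) → ℝ) (s : ℝ) : ℝ := u (s • ee i)
noncomputable def h1 (u : EuclideanSpace ℝ (Fin (p + 1)) → ℝ) (s : ℝ) : ℝ :=
  pd i.succ u (s • ee i)
noncomputable def h2 (u : EuclideanSpace ℝ (Fin (p + 1)) → ℝ) (s : ℝ) : ℝ :=
  pd i.succ (pd i.succ u) (s • ee i)

/-- the parameter interval -/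
def Js (Ω : Set (EuclideanSpace ℝ (Fin (p + 1)))) : Set ℝ := {s | s • ee i ∈ Ω}

lemma isOpen_Js (hΩ : IsOpen Ω) : IsOpen (Js i Ω) :=
  hΩ.preimage (continuous_id.smul continuous_const)

lemma contDiffOn_axis {f : EuclideanSpace ℝ (Fin (p + 1)) → ℝ} (hf : ContDiffOn ℝ ∞ f Ω) :
    ContDiffOn ℝ ∞ (fun s : ℝ => f (s • ee i)) (Js i Ω) := by
  have h : ContDiff ℝ ∞ (fun s : ℝ => s • ee i) := contDiff_id.smul contDiff_const
  exact hf.comp h.contDiffOn (fun s hs => hs)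

lemma hasDerivAt_axis (hΩ : IsOpen Ω) {f : EuclideanSpace ℝ (Fin (p + 1)) → ℝ}
    (hf : ContDiffOn ℝ ∞ f Ω) {s : ℝ} (hs : s ∈ Js i Ω) :
    HasDerivAt (fun s : ℝ => f (s • ee i)) (pd i.succ f (s • ee i)) s := by
  have h1 : HasDerivAt (fun s : ℝ => s • ee i) ((1:ℝ) • ee i) s :=
    (hasDerivAt_id s).smul_const (ee i)
  have h2 : HasFDerivAt f (fderiv ℝ f (s • ee i)) (s • ee i) :=
    ((hf.contDiffAt (hΩ.mem_nhds hs)).differentiableAt (by simp)).hasFDerivAt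
  have h3 := h2.comp_hasDerivAt s h1
  rw [one_smul] at h3
  exact h3

variable (hs : BoostSymmetric Ω u) (hne : Ω.Nonempty) (hΩ : IsOpen Ω) (hc : Convex ℝ Ω)
  (hu : ContDiffOn ℝ ∞ u Ω) (hpos : ∀ x ∈ Ω, (hess u x).PosDef)

include hΩ hu in
lemma hasDerivAt_h0 {s : ℝ} (hs : s ∈ Js i Ω) : HasDerivAt (h0 i u) (h1 i u s) s :=
  hasDerivAt_axis i hΩ hu hs

include hΩ hu in
lemma hasDerivAt_h1 {s : ℝ} (hs : s ∈ Js i Ω) : HasDerivAt (h1 i u) (h2 i u s) s :=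
  hasDerivAt_axis i hΩ (contDiffOn_pd hΩ i.succ u hu) hs

include hpos in
lemma h2_pos {s : ℝ} (hs : s ∈ Js i Ω) : 0 < h2 i u s :=
  (hpos _ hs).diag_pos (i := i.succ)

include hs in
lemma h0_pos {s : ℝ} (hs' : s ∈ Js i Ω) : 0 < h0 i u s := pos_on hs hs'

include hs in
lemma h0_neg {s : ℝ} (hs' : s ∈ Js i Ω) : h0 i u (-s) = h0 i u s := by
  obtain ⟨k1, k2⟩ := neg_mem i hs hs'
  have k3 : 0 < h0 i u (-s) := pos_on hs k1
  have k4 : 0 < h0 i u s := pos_on hs hs'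
  have k5 : h0 i u (-s) ^ 2 = h0 i u s ^ 2 := k2
  exact (pow_left_inj₀ k3.le k4.le two_ne_zero).1 k5

include hs hne hΩ hc hu in
lemma h1_zero : h1 i u 0 = 0 := by
  have hz : (0:ℝ) ∈ Js i Ω := zero_mem' i hs hne hc
  have k1 := hasDerivAt_h0 i hΩ hu hz
  have k2 : HasDerivAt (fun s => h0 i u (-s)) (-(h1 i u 0)) 0 := by
    have k3 : HasDerivAt (fun s : ℝ => -s) (-1) 0 := hasDerivAt_neg 0
    have k4 : HasDerivAt (h0 i u) (h1 i u 0) (-0) := by rw [neg_zero]; exact k1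
    have := k4.comp (0:ℝ) k3
    exact HasDerivAt.congr_deriv this (by ring)
  have k5 : (fun s => h0 i u (-s)) =ᶠ[𝓝 0] h0 i u := by
    filter_upwards [(isOpen_Js i hΩ).mem_nhds hz] with s hs'
    exact h0_neg i hs hs'
  have k6 := k2.congr_of_eventuallyEq k5.symm
  have := k1.unique k6
  linarith only [this]

include hs hne hΩ hc hu hpos in
lemma h1_pos {s : ℝ} (hs' : s ∈ Js i Ω) (h0' : 0 < s) : 0 < h1 i u s := by
  rw [← h1_zero i hs hne hΩ hc hu]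
  have hin : ∀ t ∈ Icc 0 s, t ∈ Js i Ω := fun t ht => down_mem i hs hne hc hs' ht.1 ht.2
  exact smono_of_hasDeriv h0' (fun t ht => hasDerivAt_h1 i hΩ hu (hin t ht))
    (fun t ht => h2_pos i hpos (hin t ht))

/-! ### The data in the variable `ρ` -/

/-- the interval of values of `ρ` -/
def Ir (Ω : Set (EuclideanSpace ℝ (Fin (p + 1)))) : Set ℝ := {ρ | 0 < ρ ∧ Real.sqrt (2 * ρ) ∈ Js i Ω}

lemma isOpen_Ir (hΩ : IsOpen Ω) : IsOpen (Ir i Ω) := by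
  apply isOpen_Ioi.inter
  exact (isOpen_Js i hΩ).preimage (Real.continuous_sqrt.comp (continuous_const.mul continuous_id))

noncomputable def etaR (u : EuclideanSpace ℝ (Fin (p + 1)) → ℝ) (ρ : ℝ) : ℝ :=
  h0 i u (Real.sqrt (2 * ρ))

noncomputable def aR (u : EuclideanSpace ℝ (Fin (p + 1)) → ℝ) (ρ : ℝ) : ℝ :=
  h1 i u (Real.sqrt (2 * ρ)) / (Real.sqrt (2 * ρ) * h0 i u (Real.sqrt (2 * ρ)))

noncomputable def bR (u : EuclideanSpace ℝ (Fin (p + 1)) → ℝ) (ρ : ℝ) : ℝ :=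
  h2 i u (Real.sqrt (2 * ρ)) / (Real.sqrt (2 * ρ) * h1 i u (Real.sqrt (2 * ρ))) - 1 / (2 * ρ)

noncomputable def bR' (u : EuclideanSpace ℝ (Fin (p + 1)) → ℝ) (ρ : ℝ) : ℝ :=
  deriv (bR i u) ρ

lemma hasDerivAt_sqrt2 {ρ : ℝ} (hρ : 0 < ρ) :
    HasDerivAt (fun ρ : ℝ => Real.sqrt (2 * ρ)) (1 / Real.sqrt (2 * ρ)) ρ := by
  have h := ((hasDerivAt_id ρ).const_mul 2).sqrt (by simp only [id]; positivity)
  refine h.congr_deriv ?_
  simp only [id, mul_one]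
  field_simp

include hs in
lemma etaR_pos {ρ : ℝ} (hρ : ρ ∈ Ir i Ω) : 0 < etaR i u ρ := h0_pos i hs hρ.2

include hs hne hΩ hc hu hpos in
lemma aR_pos {ρ : ℝ} (hρ : ρ ∈ Ir i Ω) : 0 < aR i u ρ := by
  have hr : 0 < Real.sqrt (2 * ρ) := Real.sqrt_pos.2 (by have := hρ.1; positivity)
  have k1 := h1_pos i hs hne hΩ hc hu hpos hρ.2 hr
  have k2 := h0_pos i hs hρ.2
  unfold aR
  positivity

lemma bR_eq {ρ : ℝ} (hρ : 0 < ρ) : 1 + 2 * ρ * bR i u ρ =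
    Real.sqrt (2 * ρ) * h2 i u (Real.sqrt (2 * ρ)) / h1 i u (Real.sqrt (2 * ρ)) := by
  have hr : 0 < Real.sqrt (2 * ρ) := Real.sqrt_pos.2 (by positivity)
  have hr2 : 2 * ρ = Real.sqrt (2 * ρ) ^ 2 := (Real.sq_sqrt (by positivity)).symm
  unfold bR
  set r := Real.sqrt (2 * ρ) with hrdef
  rw [hr2]
  by_cases h : h1 i u r = 0
  · rw [h]
    field_simp
    simp
  · field_simp
    ring

include hs hne hΩ hc hu hpos in
lemma bR_pos1 {ρ : ℝ} (hρ : ρ ∈ Ir i Ω) : 0 < 1 + 2 * ρ * bR i u ρ := by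
  have hr : 0 < Real.sqrt (2 * ρ) := Real.sqrt_pos.2 (by have := hρ.1; positivity)
  have k1 := h1_pos i hs hne hΩ hc hu hpos hρ.2 hr
  have k2 := h2_pos i hpos hρ.2
  rw [bR_eq i hρ.1]
  positivity

include hs hΩ hu in
lemma hasDerivAt_etaR {ρ : ℝ} (hρ : ρ ∈ Ir i Ω) :
    HasDerivAt (etaR i u) (aR i u ρ * etaR i u ρ) ρ := by
  have hr : 0 < Real.sqrt (2 * ρ) := Real.sqrt_pos.2 (by have := hρ.1; positivity)
  have k := (hasDerivAt_h0 i hΩ hu hρ.2).comp ρ (hasDerivAt_sqrt2 hρ.1)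
  refine HasDerivAt.congr_deriv k ?_
  have k2 := h0_pos i hs hρ.2
  unfold aR etaR
  field_simp

include hs hne hΩ hc hu hpos in
lemma hasDerivAt_aR {ρ : ℝ} (hρ : ρ ∈ Ir i Ω) :
    HasDerivAt (aR i u) (aR i u ρ * (bR i u ρ - aR i u ρ)) ρ := by
  have hr : 0 < Real.sqrt (2 * ρ) := Real.sqrt_pos.2 (by have := hρ.1; positivity)
  have hr2 : 2 * ρ = Real.sqrt (2 * ρ) ^ 2 := (Real.sq_sqrt (by have := hρ.1; positivity)).symm
  have k0 := h0_pos i hs hρ.2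
  have k1 := h1_pos i hs hne hΩ hc hu hpos hρ.2 hr
  have d0 := (hasDerivAt_h0 i hΩ hu hρ.2).comp ρ (hasDerivAt_sqrt2 hρ.1)
  have d1 := (hasDerivAt_h1 i hΩ hu hρ.2).comp ρ (hasDerivAt_sqrt2 hρ.1)
  have k := d1.fun_div ((hasDerivAt_sqrt2 hρ.1).fun_mul d0) (by
    simp only [Function.comp]; positivity)
  refine HasDerivAt.congr_deriv k ?_
  simp only [Function.comp]
  unfold aR bR
  rw [hr2]
  set r := Real.sqrt (2 * ρ) with hrdef
  have e : Real.sqrt (r ^ 2) = r := Real.sqrt_sq hr.le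
  rw [e]
  field_simp
  ring

include hs hne hΩ hc hu hpos in
lemma contDiffOn_bR : ContDiffOn ℝ ∞ (bR i u) (Ir i Ω) := by
  have hsq : ContDiffOn ℝ ∞ (fun ρ : ℝ => Real.sqrt (2 * ρ)) (Ir i Ω) := by
    intro ρ hρ
    have : (2 * ρ) ≠ 0 := by have := hρ.1; positivity
    exact ((contDiffAt_const.mul contDiffAt_id).sqrt this).contDiffWithinAt
  have hm : MapsTo (fun ρ : ℝ => Real.sqrt (2 * ρ)) (Ir i Ω) (Js i Ω) := fun ρ hρ => hρ.2
  have hpu := contDiffOn_pd hΩ i.succ u hu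
  have c1 : ContDiffOn ℝ ∞ (fun ρ : ℝ => h1 i u (Real.sqrt (2 * ρ))) (Ir i Ω) :=
    (contDiffOn_axis i hpu).comp hsq hm
  have c2 : ContDiffOn ℝ ∞ (fun ρ : ℝ => h2 i u (Real.sqrt (2 * ρ))) (Ir i Ω) :=
    (contDiffOn_axis i (contDiffOn_pd hΩ i.succ _ hpu)).comp hsq hm
  unfold bR
  apply ContDiffOn.sub
  · apply c2.div (hsq.mul c1)
    intro ρ hρ
    have hr : 0 < Real.sqrt (2 * ρ) := Real.sqrt_pos.2 (by have := hρ.1; positivity)
    have k1 := h1_pos i hs hne hΩ hc hu hpos hρ.2 hr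
    positivity
  · apply contDiffOn_const.div (contDiffOn_const.mul contDiffOn_id)
    intro ρ hρ
    have := hρ.1
    positivity

include hs hne hΩ hc hu hpos in
lemma hasDerivAt_bR {ρ : ℝ} (hρ : ρ ∈ Ir i Ω) : HasDerivAt (bR i u) (bR' i u ρ) ρ :=
  (((contDiffOn_bR i hs hne hΩ hc hu hpos).contDiffAt
    ((isOpen_Ir i hΩ).mem_nhds hρ)).differentiableAt (by simp)).hasDerivAt

include hs hne hΩ hc hu hpos in
lemma differentiableAt_bR' {ρ : ℝ} (hρ : ρ ∈ Ir i Ω) : DifferentiableAt ℝ (bR' i u) ρ := by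
  have h : ContDiffOn ℝ ∞ (deriv (bR i u)) (Ir i Ω) :=
    (contDiffOn_bR i hs hne hΩ hc hu hpos).deriv_of_isOpen (isOpen_Ir i hΩ) (by simp)
  exact (h.contDiffAt ((isOpen_Ir i hΩ).mem_nhds hρ)).differentiableAt (by simp)

include hs hne hΩ hc hu hpos in
lemma differentiableAt_kL {ρ : ℝ} (hρ : ρ ∈ Ir i Ω) :
    DifferentiableAt ℝ (kL p (aR i u) (bR i u) (bR' i u)) ρ := by
  have d1 := (hasDerivAt_aR i hs hne hΩ hc hu hpos hρ).differentiableAt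
  have d2 := (hasDerivAt_bR i hs hne hΩ hc hu hpos hρ).differentiableAt
  have d3 := differentiableAt_bR' i hs hne hΩ hc hu hpos hρ
  have hpos1 := (bR_pos1 i hs hne hΩ hc hu hpos hρ).ne'
  have did : DifferentiableAt ℝ (fun x : ℝ => 2 * x) ρ := differentiableAt_id.const_mul 2
  exact ((((d2.sub d1).const_mul _).add (d1.const_mul _)).add
    (((did.mul d3).add (d2.const_mul 2)).div ((did.mul d2).const_add 1) hpos1)).const_mul _

/-- the local data of a symmetric graph -/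
noncomputable def locData (hs : BoostSymmetric Ω u) (hne : Ω.Nonempty) (hΩ : IsOpen Ω)
    (hc : Convex ℝ Ω) (hu : ContDiffOn ℝ ∞ u Ω) (hpos : ∀ x ∈ Ω, (hess u x).PosDef) :
    LocData p where
  I := Ir i Ω
  η := etaR i u
  a := aR i u
  b := bR i u
  b' := bR' i u
  k' := deriv (kL p (aR i u) (bR i u) (bR' i u))
  I_open := isOpen_Ir i hΩ
  η_pos := fun _ hρ => etaR_pos i hs hρ
  a_pos := fun _ hρ => aR_pos i hs hne hΩ hc hu hpos hρ
  pos1 := fun _ hρ => bR_pos1 i hs hne hΩ hc hu hpos hρ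
  hη := fun _ hρ => hasDerivAt_etaR i hs hΩ hu hρ
  ha := fun _ hρ => hasDerivAt_aR i hs hne hΩ hc hu hpos hρ
  hb := fun _ hρ => hasDerivAt_bR i hs hne hΩ hc hu hpos hρ
  hk := fun _ hρ => (differentiableAt_kL i hs hne hΩ hc hu hpos hρ).hasDerivAt

/-- near the points with `ρ ∈ I` the function is `√(x₀² + η(ρ)²)` -/
lemma ev_uu {x : EuclideanSpace ℝ (Fin (p + 1))} (hx : x ∈ Ω) (hxI : rho x ∈ Ir i Ω) :
    u =ᶠ[𝓝 x] (locData i hs hne hΩ hc hu hpos).uu := by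
  have hopen : IsOpen {y | y ∈ Ω ∧ rho y ∈ Ir i Ω} :=
    hΩ.inter ((isOpen_Ir i hΩ).preimage contDiff_rho.continuous)
  filter_upwards [hopen.mem_nhds ⟨hx, hxI⟩] with y hy
  obtain ⟨k1, k2⟩ := sqrt_mem i hs hy.1
  change u y = Real.sqrt (y 0 ^ 2 + (u (Real.sqrt (2 * rho y) • ee i)) ^ 2)
  rw [k2, show y 0 ^ 2 + (u y ^ 2 - y 0 ^ 2) = u y ^ 2 by ring, Real.sqrt_sq (pos_on hs hy.1).le]

lemma wfun_congr {n : ℕ} {f g : EuclideanSpace ℝ (Fin n) → ℝ} {x : EuclideanSpace ℝ (Fin n)}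
    (h : f =ᶠ[𝓝 x] g) : wfun f =ᶠ[𝓝 x] wfun g := by
  filter_upwards [h.eventuallyEq_nhds] with y hy
  unfold wfun
  rw [hess_congr hy]

lemma rho_mem {ρ : ℝ} (hρ : ρ ∈ Ir i Ω) : Real.sqrt (2 * ρ) • ee i ∈ Ω ∧
    rho (Real.sqrt (2 * ρ) • ee i) = ρ := by
  refine ⟨hρ.2, ?_⟩
  rw [rho_smul_ee, Real.sq_sqrt (by have := hρ.1; positivity)]
  ring

include hs hne hΩ hc hu hpos in
/-- the ODE of the profile -/
lemma ode_locData (hp : 1 ≤ p) (ham : AffineMaximalOn Ω u) {ρ : ℝ} (hρ : ρ ∈ Ir i Ω)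
    (D : LocData p) (hD : D = locData i hs hne hΩ hc hu hpos) :
    ((p : ℝ) - 1) * (1 + D.b ρ * (2 * ρ)) * (D.kr ρ + (p + 2) * D.a ρ)
      + (D.kr ρ + (p + 2) * D.a ρ)
      + 2 * ρ * (D.k' ρ + (p + 2) * D.a ρ * (D.b ρ - D.a ρ) + (D.kr ρ + (p + 2) * D.a ρ) ^ 2)
      + (p + 2) * D.a ρ * (1 + D.b ρ * (2 * ρ)) = 0 := by
  obtain ⟨hx, hxρ⟩ := rho_mem i hρ
  set x := Real.sqrt (2 * ρ) • ee i with hxdef
  have hxI : rho x ∈ Ir i Ω := by rw [hxρ]; exact hρ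
  have hev := ev_uu i hs hne hΩ hc hu hpos hx hxI
  rw [← hD] at hev
  have hDI : x ∈ D.UU := by
    rw [hD]
    exact hxI
  have hw := wfun_congr hev
  have ham' : ∑ i, ∑ j, ((hess D.uu x).det * (hess D.uu x)⁻¹ i j) *
      pd i (pd j (wfun D.uu)) x = 0 := by
    have := ham x hx
    rw [hess_congr hev] at this
    have e : ∀ i j, pd i (pd j (wfun u)) x = pd i (pd j (wfun D.uu)) x := fun i j =>
      pd_congr (pd_congr_ev hw j) i
    simp only [e] at this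
    exact this
  have hode := D.ode_of_am hp hDI ham'
  have e1 : D.aa x = D.a ρ := by unfold LocData.aa; rw [hxρ]
  have e2 : D.bb x = D.b ρ := by unfold LocData.bb; rw [hxρ]
  have e3 : D.kk x = D.kr ρ := by unfold LocData.kk LocData.kr; rw [hxρ]
  have e4 : D.kk' x = D.k' ρ := by unfold LocData.kk'; rw [hxρ]
  rw [e1, e2, e3, e4, hxρ] at hode
  exact hode

end

end Vale.Agent.P252
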