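import Vale.Agent.P252.MathlibUsed
import Vale.Agent.P252.Defs
import Vale.Agent.P252.BernsteinDefs
import Vale.Agent.P252.AffineDefs
import Vale.Agent.P252.Bdl.B1
import Vale.Agent.P252.H47.Pde
import Vale.Agent.P252.H47.Complete

/-! The half-space example: `v = h² / x₀` on `0 < x₀` is smooth, locally uniformly convex, affine
maximal, Euclidean complete and affine complete. -/

open scoped ContDiff Topology
open Filter

namespace Vale.Agent.P252

variable {p : ℕ} (D : OdeData p)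

lemma convex_half : Convex ℝ {x : EuclideanSpace ℝ (Fin (p + 1)) | 0 < x 0} :=
  convex_halfSpace_gt (EuclideanSpace.proj (0 : Fin (p + 1)) :
    EuclideanSpace ℝ (Fin (p + 1)) →L[ℝ] ℝ).isLinear _

lemma contDiff_y : ContDiff ℝ ∞ (fun x : EuclideanSpace ℝ (Fin (p + 1)) => x 0) :=
  (EuclideanSpace.proj (0 : Fin (p + 1)) : EuclideanSpace ℝ (Fin (p + 1)) →L[ℝ] ℝ).contDiff

lemma contDiffOn_vv : ContDiffOn ℝ ∞ (vv D) {x | 0 < x 0} := by
  unfold vv
  exact ((contDiff_hh D).pow 2).contDiffOn.div contDiff_y.contDiffOn (fun x hx => ne_of_gt hx)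

lemma isClosed_vv (M : ℝ) :
    IsClosed {x | x ∈ {x : EuclideanSpace ℝ (Fin (p + 1)) | 0 < x 0} ∧ vv D x ≤ M} := by
  have e : {x | x ∈ {x : EuclideanSpace ℝ (Fin (p + 1)) | 0 < x 0} ∧ vv D x ≤ M}
      = {x | 0 ≤ x 0 ∧ hh D x ^ 2 ≤ M * x 0} := by
    ext x
    have hh0 := hh_pos D x
    constructor
    · rintro ⟨h1, h2⟩
      have h1' : 0 < x 0 := h1
      refine ⟨h1'.le, ?_⟩
      unfold vv at h2
      rwa [div_le_iff₀ h1'] at h2
    · rintro ⟨h1, h2⟩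
      have h3 : 0 < x 0 := by
        rcases h1.lt_or_eq with h | h
        · exact h
        · rw [← h, mul_zero] at h2
          have : 0 < hh D x ^ 2 := by positivity
          linarith only [this, h2]
      refine ⟨h3, ?_⟩
      unfold vv
      rwa [div_le_iff₀ h3]
  rw [e]
  exact (isClosed_le continuous_const contDiff_y.continuous).inter
    (isClosed_le ((contDiff_hh D).continuous.pow 2) (continuous_const.mul contDiff_y.continuous))

/-- the proper function `f = y + h² / y` -/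
noncomputable def fv (x : EuclideanSpace ℝ (Fin (p + 1))) : ℝ := x 0 + vv D x

lemma contDiffOn_fv : ContDiffOn ℝ ∞ (fv D) {x | 0 < x 0} := by
  unfold fv
  exact contDiff_y.contDiffOn.add (contDiffOn_vv D)

lemma fv_pos (x : EuclideanSpace ℝ (Fin (p + 1))) (hx : 0 < x 0) : 0 < fv D x := by
  have hh0 := hh_pos D x
  unfold fv vv
  positivity

lemma isCompact_fv (M : ℝ) :
    IsCompact {x | x ∈ {x : EuclideanSpace ℝ (Fin (p + 1)) | 0 < x 0} ∧ fv D x ≤ M} := by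
  have e : {x | x ∈ {x : EuclideanSpace ℝ (Fin (p + 1)) | 0 < x 0} ∧ fv D x ≤ M}
      = {x | 0 ≤ x 0 ∧ (x 0) ^ 2 + hh D x ^ 2 ≤ M * x 0} := by
    ext x
    have hh0 := hh_pos D x
    constructor
    · rintro ⟨h1, h2⟩
      have h1' : 0 < x 0 := h1
      refine ⟨h1'.le, ?_⟩
      have h3 : fv D x * x 0 = (x 0) ^ 2 + hh D x ^ 2 := by
        unfold fv vv
        field_simp
      rw [← h3]
      exact mul_le_mul_of_nonneg_right h2 h1'.le
    · rintro ⟨h1, h2⟩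
      have h3 : 0 < x 0 := by
        rcases h1.lt_or_eq with h | h
        · exact h
        · rw [← h, mul_zero] at h2
          have : 0 < hh D x ^ 2 := by positivity
          nlinarith only [this, h2]
      refine ⟨h3, ?_⟩
      have h4 : fv D x * x 0 = (x 0) ^ 2 + hh D x ^ 2 := by
        unfold fv vv
        field_simp
      rw [← h4] at h2
      exact le_of_mul_le_mul_right h2 h3
  rw [e]
  apply Metric.isCompact_of_isClosed_isBounded
  · exact (isClosed_le continuous_const contDiff_y.continuous).inter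
      (isClosed_le ((contDiff_y.continuous.pow 2).add ((contDiff_hh D).continuous.pow 2))
        (continuous_const.mul contDiff_y.continuous))
  · apply (uu_proper D |M|).subset
    rintro x ⟨h1, h2⟩
    have hU := uu_pos D x
    have hsq := uu_sq D x
    have hh0 := hh_pos D x
    have h5 : x 0 ≤ uu D x := by
      apply le_of_sq_le_sq _ hU.le
      rw [hsq]
      nlinarith only [sq_nonneg (hh D x)]
    have h6 : uu D x * uu D x ≤ |M| * uu D x := by
      have e1 : uu D x * uu D x = (x 0) ^ 2 + hh D x ^ 2 := by rw [← hsq]; ring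
      rw [e1]
      calc (x 0) ^ 2 + hh D x ^ 2 ≤ M * x 0 := h2
        _ ≤ |M| * x 0 := mul_le_mul_of_nonneg_right (le_abs_self M) h1
        _ ≤ |M| * uu D x := mul_le_mul_of_nonneg_left h5 (abs_nonneg M)
    exact le_of_mul_le_mul_right h6 hU

lemma DH.add {F G α β α' β' : EuclideanSpace ℝ (Fin (p + 1)) → ℝ} (hF : DH F α β)
    (hG : DH G α' β') : DH (fun x => F x + G x) (fun x => α x + α' x)
      (fun x => β x + β' x) := by
  intro x hx
  refine HasFDerivAt.congr_fderiv ((hF x hx).fun_add (hG x hx)) ?_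
  ext v
  simp only [_root_.add_apply, _root_.smul_apply, smul_eq_mul]
  ring

lemma DH_fv : DH (fv D) (fun x => 1 - hh D x ^ 2 / (x 0) ^ 2)
    (fun x => 2 * aa D x * hh D x ^ 2 / x 0) := by
  have h := (DD.y (p := p)).toDH.add (DH_vv D)
  refine DH.congr (F := fv D) h (fun x _ => ?_) (fun x _ => ?_)
  · ring
  · ring

/-- the elementary inequality behind affine completeness of the half-space example -/
lemma key_ineq_half (y h a b r T S v k g : ℝ) (hy : 0 < y) (ha : 0 < a) (hb : 0 < b)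
    (hra : 2 * r * a ≤ 9 / 2)
    (hTS : T ^ 2 ≤ 2 * r * S) (hS : 0 ≤ S) (hg : 1 ≤ k * h ^ 2 * g) :
    ((1 - h ^ 2 / y ^ 2) * v + 2 * a * h ^ 2 / y * T) ^ 2 ≤
      9 * k * (y + h ^ 2 / y) ^ 2 * (g * y * (2 * h ^ 2 / y ^ 3 * v ^ 2 +
      2 * (-(2 * a * h ^ 2 / y ^ 2)) * v * T + 2 * a * h ^ 2 / y * S +
      (2 * (a * b + a ^ 2) * h ^ 2 / y) * T ^ 2)) := by
  set Q := (v - a * y * T) ^ 2 + y ^ 2 * (a * (S + b * T ^ 2)) with hQ
  set F := y + h ^ 2 / y with hF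
  have e1 : 9 * k * F ^ 2 * (g * y * (2 * h ^ 2 / y ^ 3 * v ^ 2 +
      2 * (-(2 * a * h ^ 2 / y ^ 2)) * v * T + 2 * a * h ^ 2 / y * S +
      (2 * (a * b + a ^ 2) * h ^ 2 / y) * T ^ 2))
      = 18 * (k * h ^ 2 * g) * (F ^ 2 * (Q / y ^ 2)) := by
    have : g * y * (2 * h ^ 2 / y ^ 3 * v ^ 2 +
      2 * (-(2 * a * h ^ 2 / y ^ 2)) * v * T + 2 * a * h ^ 2 / y * S +
      (2 * (a * b + a ^ 2) * h ^ 2 / y) * T ^ 2) = 2 * (h ^ 2 * g) * (Q / y ^ 2) := by
      rw [hQ]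
      field_simp
      ring
    rw [this]
    ring
  rw [e1]
  have e2 : (1 - h ^ 2 / y ^ 2) * v + 2 * a * h ^ 2 / y * T
      = (1 - h ^ 2 / y ^ 2) * (v - a * y * T) + a * T * F := by
    rw [hF]
    field_simp
    ring
  rw [e2]
  have hF0 : 0 ≤ F := by rw [hF]; positivity
  have hFy : F / y = 1 + h ^ 2 / y ^ 2 := by
    rw [hF]
    field_simp
  have h1 : ((1 - h ^ 2 / y ^ 2) * (v - a * y * T)) ^ 2 ≤ F ^ 2 * ((v - a * y * T) ^ 2 / y ^ 2) := by
    have e3 : F ^ 2 * ((v - a * y * T) ^ 2 / y ^ 2) = (F / y) ^ 2 * (v - a * y * T) ^ 2 := by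
      rw [div_pow]; ring
    rw [e3, hFy, mul_pow]
    apply mul_le_mul_of_nonneg_right _ (sq_nonneg _)
    have : 0 ≤ h ^ 2 / y ^ 2 := by positivity
    nlinarith only [this]
  have h2 : (a * T * F) ^ 2 ≤ F ^ 2 * (9 / 2 * (a * S)) := by
    have h3 : a ^ 2 * T ^ 2 ≤ (2 * r * a) * (a * S) := by
      have := mul_le_mul_of_nonneg_left hTS (sq_nonneg a)
      linarith only [this]
    have h4 : (2 * r * a) * (a * S) ≤ 9 / 2 * (a * S) :=
      mul_le_mul_of_nonneg_right hra (by positivity)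
    have e4 : (a * T * F) ^ 2 = F ^ 2 * (a ^ 2 * T ^ 2) := by ring
    rw [e4]
    exact mul_le_mul_of_nonneg_left (h3.trans h4) (sq_nonneg F)
  have h5 : ((1 - h ^ 2 / y ^ 2) * (v - a * y * T) + a * T * F) ^ 2 ≤
      2 * ((1 - h ^ 2 / y ^ 2) * (v - a * y * T)) ^ 2 + 2 * (a * T * F) ^ 2 := by
    have := sq_nonneg ((1 - h ^ 2 / y ^ 2) * (v - a * y * T) - a * T * F)
    linarith only [this]
  have e6 : Q / y ^ 2 = (v - a * y * T) ^ 2 / y ^ 2 + a * S + a * b * T ^ 2 := by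
    rw [hQ]
    field_simp
    ring
  have h7 : 0 ≤ F ^ 2 * (Q / y ^ 2) := by
    rw [hQ]
    positivity
  have h8 : F ^ 2 * (Q / y ^ 2) ≤ (k * h ^ 2 * g) * (F ^ 2 * (Q / y ^ 2)) := by
    have := mul_le_mul_of_nonneg_right hg h7
    linarith only [this]
  have h9 : 0 ≤ F ^ 2 * ((v - a * y * T) ^ 2 / y ^ 2) := by positivity
  have h10 : 0 ≤ F ^ 2 * (a * S) := by positivity
  have h11 : 0 ≤ F ^ 2 * (a * b * T ^ 2) := by positivity
  have e12 : F ^ 2 * (Q / y ^ 2) = F ^ 2 * ((v - a * y * T) ^ 2 / y ^ 2) + F ^ 2 * (a * S)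
      + F ^ 2 * (a * b * T ^ 2) := by rw [e6]; ring
  linarith only [h1, h2, h5, h8, h9, h10, h11, e12]

lemma GG_rpow_bound (hb : ∀ ρ, -D.ε < ρ → D.b ρ < 5 / 9 * D.a ρ) :
    ∃ k : ℝ, 0 < k ∧ ∀ x, 1 ≤ k * hh D x ^ 2 * (GG D x) ^ (-1 / ((p:ℝ) + 3)) := by
  have hε := D.ε_pos
  have h0 := D.a_pos 0 (by linarith)
  have h1 := D.η_pos 0 (by linarith)
  set K : ℝ := D.a 0 ^ p * (7 / 2) / D.η 0 ^ 4 with hK
  have hKpos : 0 < K := by positivity
  set k : ℝ := K ^ (1 / ((p:ℝ) + 3)) with hk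
  have hkpos : 0 < k := Real.rpow_pos_of_pos hKpos _
  refine ⟨k, hkpos, ?_⟩
  intro x
  have hG := GG_pos D x
  have h2 := hh_pos D x
  set g : ℝ := (GG D x) ^ (-1 / ((p:ℝ) + 3)) with hg
  have hb1 := GG_bound D hb x
  rw [← hK] at hb1
  have hb2 : GG D x ^ (1 / ((p:ℝ) + 3)) ≤ k * hh D x ^ 2 := by
    calc GG D x ^ (1 / ((p:ℝ) + 3)) ≤ (K * (hh D x ^ 2) ^ (p + 3)) ^ (1 / ((p:ℝ) + 3)) :=
          Real.rpow_le_rpow hG.le hb1 (by (clear * -; positivity))
      _ = k * hh D x ^ 2 := by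
          rw [Real.mul_rpow hKpos.le (by positivity), ← hk]
          congr 1
          rw [← Real.rpow_natCast, ← Real.rpow_mul (by positivity)]
          have : (((p + 3 : ℕ) : ℝ) * (1 / ((p:ℝ) + 3))) = 1 := by
            push_cast
            (clear * -; field_simp)
          rw [this, Real.rpow_one]
  have hg0 : 0 < g := Real.rpow_pos_of_pos hG _
  have hgg : GG D x ^ (1 / ((p:ℝ) + 3)) * g = 1 := by
    rw [hg, ← Real.rpow_add hG]
    have : 1 / ((p:ℝ) + 3) + -1 / ((p:ℝ) + 3) = 0 := by ring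
    rw [this, Real.rpow_zero]
  calc (1:ℝ) = GG D x ^ (1 / ((p:ℝ) + 3)) * g := hgg.symm
    _ ≤ k * hh D x ^ 2 * g := mul_le_mul_of_nonneg_right hb2 hg0.le

lemma affMetric_ineq_half (hb : ∀ ρ, -D.ε < ρ → D.b ρ < 5 / 9 * D.a ρ) :
    ∃ C : ℝ, 0 ≤ C ∧ ∀ x ∈ {x : EuclideanSpace ℝ (Fin (p + 1)) | 0 < x 0}, ∀ v,
      (fderiv ℝ (fv D) x v) ^ 2 ≤ (C * fv D x) ^ 2 * affMetric (vv D) x v := by
  obtain ⟨k, hkpos, hk⟩ := GG_rpow_bound D hb
  set c3 : ℝ := ((2:ℝ) ^ (p + 1)) ^ (-1 / ((p:ℝ) + 3)) with hc3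
  have hc3pos : 0 < c3 := Real.rpow_pos_of_pos (by positivity) _
  refine ⟨3 * Real.sqrt (k / c3), by positivity, ?_⟩
  intro x hx v
  have hy : 0 < x 0 := hx
  have h3 := aa_pos D x
  have h4 := bb_pos D x
  have hr := rho_nonneg x
  have hG := GG_pos D x
  -- the determinant factor
  set g : ℝ := (GG D x) ^ (-1 / ((p:ℝ) + 3)) with hg
  have hgk : 1 ≤ k * hh D x ^ 2 * g := hk x
  have hdet : (hess (vv D) x).det ^ (-1 / (((p + 1 : ℕ) : ℝ) + 2)) = c3 * (g * x 0) := by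
    have e0 : (((p + 1 : ℕ) : ℝ) + 2) = (p:ℝ) + 3 := by push_cast; ring
    rw [e0, det_vv D x hy, Real.mul_rpow (by positivity) (by positivity),
      Real.mul_rpow (by positivity) hG.le, mul_assoc]
    congr 2
    rw [← Real.rpow_neg_one, ← Real.rpow_natCast, ← Real.rpow_mul hy.le, ← Real.rpow_mul hy.le]
    have : (((p + 3 : ℕ) : ℝ) * -1 * (-1 / ((p:ℝ) + 3))) = 1 := by
      push_cast
      (clear * -; field_simp)
    rw [this, Real.rpow_one]
  have hquad : ∑ i, ∑ j, hess (vv D) x i j * v i * v j = 2 * hh D x ^ 2 / (x 0) ^ 3 * (v 0) ^ 2 +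
      2 * (-(2 * aa D x * hh D x ^ 2 / (x 0) ^ 2)) * (v 0) * (∑ i : Fin p, x i.succ * v i.succ)
      + 2 * aa D x * hh D x ^ 2 / x 0 * (∑ i : Fin p, (v i.succ) ^ 2) +
      (2 * (aa D x * bb D x + aa D x ^ 2) * hh D x ^ 2 / x 0)
        * (∑ i : Fin p, x i.succ * v i.succ) ^ 2 := by
    rw [hess_vv D x hy]
    exact Mx_quad (fun i => x i.succ) _ _ _ _ (fun i => v i)
  have hfd : fderiv ℝ (fv D) x v = (1 - hh D x ^ 2 / (x 0) ^ 2) * v 0 +
      2 * aa D x * hh D x ^ 2 / x 0 * (∑ i : Fin p, x i.succ * v i.succ) := by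
    rw [(DH_fv D x hy).fderiv]
    simp only [dy, drho, add_apply, smul_apply, PiLp.proj_apply, smul_eq_mul, sum_apply]
  have hCS : (∑ i : Fin p, x i.succ * v i.succ) ^ 2 ≤ 2 * rho x * (∑ i : Fin p, (v i.succ) ^ 2) := by
    rw [sum_sq_eq]
    exact Finset.sum_mul_sq_le_sq_mul_sq _ _ _
  have hkey := key_ineq_half (x 0) (hh D x) (aa D x) (bb D x) (rho x)
    (∑ i : Fin p, x i.succ * v i.succ) (∑ i : Fin p, (v i.succ) ^ 2) (v 0) k g hy h3 h4
    (two_rho_a_le D hb _ hr) hCS (by (clear * -; positivity)) hgk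
  unfold affMetric
  rw [hdet, hquad, hfd]
  have e9 : (3 * Real.sqrt (k / c3) * fv D x) ^ 2 = 9 * (k / c3) * fv D x ^ 2 := by
    rw [mul_pow, mul_pow, Real.sq_sqrt (by positivity)]; ring
  rw [e9]
  refine hkey.trans (le_of_eq ?_)
  unfold fv vv
  set Z := 2 * hh D x ^ 2 / (x 0) ^ 3 * (v 0) ^ 2 +
      2 * (-(2 * aa D x * hh D x ^ 2 / (x 0) ^ 2)) * (v 0) * (∑ i : Fin p, x i.succ * v i.succ)
      + 2 * aa D x * hh D x ^ 2 / x 0 * (∑ i : Fin p, (v i.succ) ^ 2) +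
      (2 * (aa D x * bb D x + aa D x ^ 2) * hh D x ^ 2 / x 0)
        * (∑ i : Fin p, x i.succ * v i.succ) ^ 2 with hZ
  have hc : k / c3 * c3 = k := div_mul_cancel₀ _ hc3pos.ne'
  calc 9 * k * (x 0 + hh D x ^ 2 / x 0) ^ 2 * (g * x 0 * Z)
      = 9 * (k / c3 * c3) * (x 0 + hh D x ^ 2 / x 0) ^ 2 * (g * x 0 * Z) := by rw [hc]
    _ = _ := by ring

theorem exists_half (p : ℕ) (hp : 9 ≤ p) :
    ∃ v : EuclideanSpace ℝ (Fin (p + 1)) → ℝ, ContDiffOn ℝ ∞ v {x | 0 < x 0} ∧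
      (∀ x ∈ {x : EuclideanSpace ℝ (Fin (p + 1)) | 0 < x 0}, (hess v x).PosDef) ∧
      AffineMaximalOn {x | 0 < x 0} v ∧ EuclideanComplete {x | 0 < x 0} v ∧
      AffineComplete {x | 0 < x 0} v := by
  obtain ⟨D, hb⟩ := exists_odeData' p hp
  obtain ⟨C, hC0, hC⟩ := affMetric_ineq_half D hb
  refine ⟨vv D, contDiffOn_vv D, fun x hx => posDef_vv D x hx, fun x hx => am_vv D (by omega) x hx,
    ?_, ?_⟩
  · exact euclideanComplete_of_proper isOpen_half convex_half (contDiffOn_vv D) (isClosed_vv D)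
  · exact affineComplete_of_proper isOpen_half convex_half (contDiffOn_vv D)
      (fun x hx => posDef_vv D x hx) (contDiffOn_fv D) (fun x hx => fv_pos D x hx)
      (isCompact_fv D) C hC0 hC

end Vale.Agent.P252
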