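import Vale.Agent.P252.MathlibUsed
import Vale.Agent.P252.Defs
import Vale.Agent.P252.BernsteinDefs
import Vale.Agent.P252.Bdl.B1
import Vale.Agent.P252.H47.Defs
import Vale.Agent.P252.H47.Complete
import Vale.Agent.P252.H47.Phase
import Vale.Agent.P252.H47.Ext

/-! Rigidity: no Euclidean complete symmetric affine maximal graph for `2 ≤ p ≤ 8`. -/

open scoped ContDiff Topology
open Filter Set

namespace Vale.Agent.P252

variable {p : ℕ}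

lemma tendsto_sqrt2 : Tendsto (fun ρ : ℝ => Real.sqrt (2 * ρ)) (𝓝[>] 0) (𝓝[>] 0) := by
  apply tendsto_nhdsWithin_iff.2
  constructor
  · have h : Continuous (fun ρ : ℝ => Real.sqrt (2 * ρ)) :=
      Real.continuous_sqrt.comp (continuous_const.mul continuous_id)
    have := h.tendsto 0
    simp only [mul_zero, Real.sqrt_zero] at this
    exact this.mono_left nhdsWithin_le_nhds
  · filter_upwards [self_mem_nhdsWithin] with ρ hρ
    exact Real.sqrt_pos.2 (by have : (0:ℝ) < ρ := hρ; positivity)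

lemma contDiffOn_wfun {n : ℕ} {Ω : Set (EuclideanSpace ℝ (Fin n))}
    {u : EuclideanSpace ℝ (Fin n) → ℝ} (hΩ : IsOpen Ω) (hu : ContDiffOn ℝ ∞ u Ω)
    (hpos : ∀ x ∈ Ω, (hess u x).PosDef) : ContDiffOn ℝ ∞ (wfun u) Ω := by
  unfold wfun
  apply ContDiffOn.rpow_const_of_ne
  · simp only [Matrix.det_apply']
    apply ContDiffOn.sum
    intro σ _
    apply contDiffOn_const.mul
    apply contDiffOn_prod
    intro i _
    exact contDiffOn_pd hΩ _ _ (contDiffOn_pd hΩ i u hu)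
  · intro x hx
    exact (hpos x hx).det_pos.ne'

section

variable {Ω : Set (EuclideanSpace ℝ (Fin (p + 1)))} {u : EuclideanSpace ℝ (Fin (p + 1)) → ℝ}
  (i : Fin p)
  (hs : BoostSymmetric Ω u) (hne : Ω.Nonempty) (hΩ : IsOpen Ω) (hc : Convex ℝ Ω)
  (hu : ContDiffOn ℝ ∞ u Ω) (hpos : ∀ x ∈ Ω, (hess u x).PosDef)

include hs hne hΩ hc in
lemma ev_Ir : ∀ᶠ ρ in 𝓝[>] (0:ℝ), ρ ∈ Ir i Ω := by
  have hz : (0:ℝ) ∈ Js i Ω := zero_mem' i hs hne hc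
  have h1 : ∀ᶠ s in 𝓝[>] (0:ℝ), s ∈ Js i Ω :=
    mem_nhdsWithin_of_mem_nhds ((isOpen_Js i hΩ).mem_nhds hz)
  filter_upwards [tendsto_sqrt2.eventually h1, self_mem_nhdsWithin] with ρ h2 h3
  exact ⟨h3, h2⟩

include hs hne hΩ hc hu in
lemma tendsto_eta : Tendsto (etaR i u) (𝓝[>] 0) (𝓝 (h0 i u 0)) := by
  have hz : (0:ℝ) ∈ Js i Ω := zero_mem' i hs hne hc
  have h := (hasDerivAt_h0 i hΩ hu hz).continuousAt
  exact (h.tendsto.mono_left nhdsWithin_le_nhds).comp tendsto_sqrt2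

include hs hne hΩ hc hu in
lemma tendsto_h1 : Tendsto (fun s => h1 i u s / s) (𝓝[>] 0) (𝓝 (h2 i u 0)) := by
  have hz : (0:ℝ) ∈ Js i Ω := zero_mem' i hs hne hc
  have h := hasDerivAt_iff_tendsto_slope.1 (hasDerivAt_h1 i hΩ hu hz)
  have h2 := h.mono_left (nhdsWithin_mono (0:ℝ) (fun x (hx : (0:ℝ) < x) => ne_of_gt hx))
  refine h2.congr (fun s => ?_)
  rw [slope_def_field, h1_zero i hs hne hΩ hc hu, sub_zero, sub_zero]

include hs hne hΩ hc hu in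
lemma tendsto_h2 : Tendsto (h2 i u) (𝓝[>] 0) (𝓝 (h2 i u 0)) := by
  have hz : (0:ℝ) ∈ Js i Ω := zero_mem' i hs hne hc
  have h := hasDerivAt_axis i hΩ
    (contDiffOn_pd hΩ i.succ _ (contDiffOn_pd hΩ i.succ u hu)) hz
  exact h.continuousAt.tendsto.mono_left nhdsWithin_le_nhds

include hs hne hΩ hc hu in
lemma tendsto_aR : Tendsto (aR i u) (𝓝[>] 0) (𝓝 (h2 i u 0 / h0 i u 0)) := by
  have hz : (0:ℝ) ∈ Js i Ω := zero_mem' i hs hne hc
  have k1 := (tendsto_h1 i hs hne hΩ hc hu).comp tendsto_sqrt2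
  have k2 := tendsto_eta i hs hne hΩ hc hu
  have k3 := k1.div k2 (h0_pos i hs hz).ne'
  refine k3.congr (fun ρ => ?_)
  simp only [Function.comp, Pi.div_apply]
  unfold aR etaR
  rw [div_div]

include hs hne hΩ hc hu hpos in
lemma tendsto_X : Tendsto (fun ρ => 1 + 2 * ρ * bR i u ρ) (𝓝[>] 0) (𝓝 1) := by
  have hz : (0:ℝ) ∈ Js i Ω := zero_mem' i hs hne hc
  have hp2 := h2_pos i hpos hz
  have k1 := (tendsto_h1 i hs hne hΩ hc hu).comp tendsto_sqrt2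
  have k2 := (tendsto_h2 i hs hne hΩ hc hu).comp tendsto_sqrt2
  have k3 := k2.div k1 hp2.ne'
  rw [div_self hp2.ne'] at k3
  refine k3.congr' ?_
  filter_upwards [self_mem_nhdsWithin] with ρ hρ
  have hρ' : (0:ℝ) < ρ := hρ
  have hr : 0 < Real.sqrt (2 * ρ) := Real.sqrt_pos.2 (by positivity)
  rw [bR_eq i hρ']
  simp only [Function.comp, Pi.div_apply]
  rw [div_div_eq_mul_div, mul_comm]

/-- `K` along the axis -/
noncomputable def kap (u : EuclideanSpace ℝ (Fin (p + 1)) → ℝ) (s : ℝ) : ℝ :=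
  wfun u (s • ee i) / h0 i u s ^ (p + 2)

include hs hΩ hu hpos in
lemma contDiffOn_kap : ContDiffOn ℝ ∞ (kap i u) (Js i Ω) := by
  have k1 := contDiffOn_axis i (contDiffOn_wfun hΩ hu hpos)
  have k2 : ContDiffOn ℝ ∞ (h0 i u) (Js i Ω) := contDiffOn_axis i hu
  apply k1.div (k2.pow _)
  intro s hs'
  have := h0_pos i hs hs'
  positivity

include hs hpos in
lemma kap_pos {s : ℝ} (hs' : s ∈ Js i Ω) : 0 < kap i u s := by
  unfold kap
  have k1 := h0_pos i hs hs'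
  have k2 : 0 < wfun u (s • ee i) := by
    unfold wfun
    exact Real.rpow_pos_of_pos (hpos _ hs').det_pos _
  positivity

lemma Kr_eq_kap {ρ : ℝ} (hρ : ρ ∈ Ir i Ω) :
    (locData i hs hne hΩ hc hu hpos).Kr ρ = kap i u (Real.sqrt (2 * ρ)) := by
  obtain ⟨hx, hxρ⟩ := rho_mem i hρ
  have hxI : rho (Real.sqrt (2 * ρ) • ee i) ∈ Ir i Ω := by rw [hxρ]; exact hρ
  have hev := ev_uu i hs hne hΩ hc hu hpos hx hxI
  set D := locData i hs hne hΩ hc hu hpos with hD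
  have hDI : Real.sqrt (2 * ρ) • ee i ∈ D.UU := hxI
  have k1 := D.wfun_uu hDI
  rw [D.KK_eq, hxρ] at k1
  have k2 : D.uu (Real.sqrt (2 * ρ) • ee i) = h0 i u (Real.sqrt (2 * ρ)) := hev.eq_of_nhds.symm
  have k3 : wfun D.uu (Real.sqrt (2 * ρ) • ee i) = wfun u (Real.sqrt (2 * ρ) • ee i) :=
    (wfun_congr hev).eq_of_nhds.symm
  rw [k2, k3] at k1
  unfold kap
  rw [k1]
  have := h0_pos i hs hρ.2
  field_simp

include hs hne hΩ hc hu hpos in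
lemma kr_eq {ρ : ℝ} (hρ : ρ ∈ Ir i Ω) : Real.sqrt (2 * ρ) *
    (locData i hs hne hΩ hc hu hpos).kr ρ =
      deriv (kap i u) (Real.sqrt (2 * ρ)) / kap i u (Real.sqrt (2 * ρ)) := by
  have hr : 0 < Real.sqrt (2 * ρ) := Real.sqrt_pos.2 (by have := hρ.1; positivity)
  have k0 := Kr_eq_kap i hs hne hΩ hc hu hpos hρ
  have k1 : HasDerivAt (locData i hs hne hΩ hc hu hpos).Kr _ ρ :=
    (locData i hs hne hΩ hc hu hpos).LD_Kr hρ
  have k2 : HasDerivAt (kap i u) (deriv (kap i u) (Real.sqrt (2 * ρ))) (Real.sqrt (2 * ρ)) :=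
    (((contDiffOn_kap i hs hΩ hu hpos).contDiffAt
      ((isOpen_Js i hΩ).mem_nhds hρ.2)).differentiableAt (by simp)).hasDerivAt
  have k3 := k2.comp ρ (hasDerivAt_sqrt2 hρ.1)
  have k4 : (locData i hs hne hΩ hc hu hpos).Kr =ᶠ[𝓝 ρ] (kap i u) ∘ fun ρ => Real.sqrt (2 * ρ) := by
    filter_upwards [(isOpen_Ir i hΩ).mem_nhds hρ] with σ hσ
    exact Kr_eq_kap i hs hne hΩ hc hu hpos hσ
  have k5 := k1.unique (k3.congr_of_eventuallyEq k4)
  have k6 := kap_pos i hs hpos hρ.2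
  rw [k0] at k5
  rw [eq_div_iff k6.ne']
  field_simp at k5
  linarith only [k5]

include hs hne hΩ hc hu hpos in
lemma tendsto_kr : Tendsto (fun ρ => Real.sqrt (2 * ρ) *
    (locData i hs hne hΩ hc hu hpos).kr ρ) (𝓝[>] 0) (𝓝 (deriv (kap i u) 0 / kap i u 0)) := by
  have hz : (0:ℝ) ∈ Js i Ω := zero_mem' i hs hne hc
  have hk := contDiffOn_kap i hs hΩ hu hpos
  have c1 : ContinuousAt (kap i u) 0 :=
    (hk.contDiffAt ((isOpen_Js i hΩ).mem_nhds hz)).continuousAt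
  have c2 : ContinuousAt (deriv (kap i u)) 0 :=
    ((hk.deriv_of_isOpen (isOpen_Js i hΩ) (m := ∞) (by simp)).contDiffAt
      ((isOpen_Js i hΩ).mem_nhds hz)).continuousAt
  have k1 := (c1.tendsto.mono_left nhdsWithin_le_nhds).comp tendsto_sqrt2
  have k2 := (c2.tendsto.mono_left nhdsWithin_le_nhds).comp tendsto_sqrt2
  have k3 := k2.div k1 (kap_pos i hs hpos hz).ne'
  refine k3.congr' ?_
  filter_upwards [ev_Ir i hs hne hΩ hc] with ρ hρ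
  rw [kr_eq i hs hne hΩ hc hu hpos hρ]
  rfl

include hs hne hΩ hc hu hpos in
lemma tendsto_Kr : Tendsto (locData i hs hne hΩ hc hu hpos).Kr (𝓝[>] 0) (𝓝 (kap i u 0)) := by
  have hz : (0:ℝ) ∈ Js i Ω := zero_mem' i hs hne hc
  have hk := contDiffOn_kap i hs hΩ hu hpos
  have c1 : ContinuousAt (kap i u) 0 :=
    (hk.contDiffAt ((isOpen_Js i hΩ).mem_nhds hz)).continuousAt
  have k1 := (c1.tendsto.mono_left nhdsWithin_le_nhds).comp tendsto_sqrt2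
  refine k1.congr' ?_
  filter_upwards [ev_Ir i hs hne hΩ hc] with ρ hρ
  exact (Kr_eq_kap i hs hne hΩ hc hu hpos hρ).symm

lemma tendsto_id0 : Tendsto (fun ρ : ℝ => ρ) (𝓝[>] 0) (𝓝 0) :=
  tendsto_id.mono_left nhdsWithin_le_nhds

include hs hne hΩ hc hu hpos in
/-- `√(2ρ) J` has a limit -/
lemma tendsto_rJ : ∃ L, Tendsto (fun ρ => Real.sqrt (2 * ρ) *
    (locData i hs hne hΩ hc hu hpos).Jr ρ) (𝓝[>] 0) (𝓝 L) := by
  have t1 := tendsto_kr i hs hne hΩ hc hu hpos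
  have t2 := tendsto_aR i hs hne hΩ hc hu
  have t3 := tendsto_X i hs hne hΩ hc hu hpos
  have t4 : Tendsto (fun ρ : ℝ => Real.sqrt (2 * ρ)) (𝓝[>] 0) (𝓝 0) :=
    tendsto_sqrt2.mono_right nhdsWithin_le_nhds
  have t5 : Tendsto (fun ρ : ℝ => ρ) (𝓝[>] 0) (𝓝 0) := tendsto_id0
  have t6 := (t1.mul (((t5.const_mul 4).mul t2).const_add (p : ℝ))).add
    ((t4.const_mul ((p : ℝ) + 2)).mul (((t2.const_mul ((p : ℝ) + 1)).add
      ((t5.const_mul 4).mul (t2.pow 2))).add ((t2.const_mul 2).mul (t3.sub_const 1))))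
  refine ⟨_, t6.congr (fun ρ => ?_)⟩
  unfold LocData.Jr
  change _ = Real.sqrt (2 * ρ) * ((locData i hs hne hΩ hc hu hpos).kr ρ * (p + 4 * ρ * aR i u ρ)
    + (p + 2) * ((p + 1) * aR i u ρ + 4 * ρ * aR i u ρ ^ 2 + 4 * ρ * aR i u ρ * bR i u ρ))
  ring

include hs hne hΩ hc hu hpos in
lemma tendsto_Tr (hp : 2 ≤ p) : Tendsto (locData i hs hne hΩ hc hu hpos).Tr (𝓝[>] 0) (𝓝 0) := by
  obtain ⟨L, tL⟩ := tendsto_rJ i hs hne hΩ hc hu hpos
  have t1 := tendsto_Kr i hs hne hΩ hc hu hpos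
  have t2 := tendsto_aR i hs hne hΩ hc hu
  have t3 := tendsto_eta i hs hne hΩ hc hu
  have t5 : Tendsto (fun ρ : ℝ => ρ) (𝓝[>] 0) (𝓝 0) := tendsto_id0
  have t6 := ((((t5.pow (p - 1)).mul (t1.pow 2)).mul (t2.pow (2 * (p - 1)))).mul
    (t3.pow (4 * p + 4))).mul ((tL.pow 2).const_mul (1 / 2))
  have e0 : (0:ℝ) ^ (p - 1) = 0 := zero_pow (by omega)
  rw [e0] at t6
  simp only [zero_mul] at t6
  refine t6.congr' ?_
  filter_upwards [ev_Ir i hs hne hΩ hc] with ρ hρ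
  have hρ0 := hρ.1
  unfold LocData.Tr
  change ρ ^ (p - 1) * (locData i hs hne hΩ hc hu hpos).Kr ρ ^ 2 * aR i u ρ ^ (2 * (p - 1)) *
    etaR i u ρ ^ (4 * p + 4) * (1 / 2 * (Real.sqrt (2 * ρ) *
      (locData i hs hne hΩ hc hu hpos).Jr ρ) ^ 2) =
    ρ ^ p * (locData i hs hne hΩ hc hu hpos).Kr ρ ^ 2 * aR i u ρ ^ (2 * (p - 1)) *
    etaR i u ρ ^ (4 * p + 4) * (locData i hs hne hΩ hc hu hpos).Jr ρ ^ 2
  rw [mul_pow (Real.sqrt (2 * ρ)), Real.sq_sqrt (by positivity)]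
  have e1 : ρ ^ p = ρ ^ (p - 1) * ρ := by
    rw [← pow_succ]
    congr 1
    omega
  rw [e1]
  ring

include hs hne hΩ hc hu hpos in
lemma Jr_zero (hp : 2 ≤ p) (ham : AffineMaximalOn Ω u) {ρ : ℝ} (hρ : ρ ∈ Ir i Ω) :
    (locData i hs hne hΩ hc hu hpos).Jr ρ = 0 := by
  set D := locData i hs hne hΩ hc hu hpos with hD
  have hder : ∀ σ ∈ Ir i Ω, HasDerivAt D.Tr 0 σ := fun σ hσ =>
    D.deriv_Tr (by omega) hσ hσ.1
      (ode_locData i hs hne hΩ hc hu hpos (by omega) ham hσ D hD)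
  have hconst : ∀ σ ∈ Ir i Ω, σ ≤ ρ → D.Tr σ = D.Tr ρ := by
    intro σ hσ hle
    have hin : ∀ t ∈ Icc σ ρ, t ∈ Ir i Ω := by
      intro t ht
      have ht0 : 0 < t := lt_of_lt_of_le hσ.1 ht.1
      exact ⟨ht0, down_mem i hs hne hc hρ.2 (Real.sqrt_nonneg _)
        (Real.sqrt_le_sqrt (by linarith only [ht.2]))⟩
    apply le_antisymm
    · exact mono_of_hasDeriv hle (fun t ht => hder t (hin t ht)) (fun _ _ => le_rfl)
    · have := mono_of_hasDeriv (f := fun t => -D.Tr t) (f' := fun _ => -0) hle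
        (fun t ht => (hder t (hin t ht)).fun_neg) (fun _ _ => by simp)
      linarith only [this]
  have hT : D.Tr ρ = 0 := by
    have t1 := tendsto_Tr i hs hne hΩ hc hu hpos hp
    rw [← hD] at t1
    have t2 : Tendsto D.Tr (𝓝[>] 0) (𝓝 (D.Tr ρ)) := by
      apply tendsto_const_nhds.congr'
      filter_upwards [ev_Ir i hs hne hΩ hc, Ioo_mem_nhdsGT hρ.1] with σ h1 h2
      exact (hconst σ h1 h2.2.le).symm
    exact tendsto_nhds_unique t2 t1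
  have k1 := D.Kr_pos hρ
  have k2 := D.a_pos ρ hρ
  have k3 := D.η_pos ρ hρ
  have k4 := hρ.1
  unfold LocData.Tr at hT
  have k5 : ρ ^ p * D.Kr ρ ^ 2 * D.a ρ ^ (2 * (p - 1)) * D.η ρ ^ (4 * p + 4) ≠ 0 := by positivity
  have k6 := (mul_eq_zero.1 hT).resolve_left k5
  exact pow_eq_zero_iff (two_ne_zero) |>.1 k6

/-! ### The phase-plane functions -/

noncomputable def QR (u : EuclideanSpace ℝ (Fin (p + 1)) → ℝ) (ρ : ℝ) : ℝ := 2 * ρ * aR i u ρ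
noncomputable def XR (u : EuclideanSpace ℝ (Fin (p + 1)) → ℝ) (ρ : ℝ) : ℝ := 1 + 2 * ρ * bR i u ρ

include hs hne hΩ hc hu hpos in
lemma hasDerivAt_QR {ρ : ℝ} (hρ : ρ ∈ Ir i Ω) :
    HasDerivAt (QR i u) (QR i u ρ * (1 + XR i u ρ - QR i u ρ) / (2 * ρ)) ρ := by
  have k1 := ((hasDerivAt_id ρ).const_mul 2).fun_mul (hasDerivAt_aR i hs hne hΩ hc hu hpos hρ)
  refine HasDerivAt.congr_deriv k1 ?_
  have := hρ.1
  unfold QR XR
  simp only [id]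
  field_simp
  ring

include hs hne hΩ hc hu hpos in
lemma hasDerivAt_XR (hp : 2 ≤ p) (ham : AffineMaximalOn Ω u) {ρ : ℝ} (hρ : ρ ∈ Ir i Ω) :
    HasDerivAt (XR i u) (XR i u ρ * Nf p (QR i u ρ) (XR i u ρ) /
      ((p + 2 * QR i u ρ) * (2 * ρ))) ρ := by
  have k1 := (((hasDerivAt_id ρ).const_mul 2).fun_mul
    (hasDerivAt_bR i hs hne hΩ hc hu hpos hρ)).const_add 1
  refine HasDerivAt.congr_deriv k1 ?_
  have h0 := hρ.1
  have hJ := Jr_zero i hs hne hΩ hc hu hpos hp ham hρ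
  have heq := (locData i hs hne hΩ hc hu hpos).heq_of_Jr hρ hJ
  change (p + 4 * ρ * aR i u ρ) * (2 * ρ * bR' i u ρ + 2 * bR i u ρ)
      = (1 + 2 * ρ * bR i u ρ) * ((2 * p + 3) * aR i u ρ - (p : ℝ) ^ 2 * bR i u ρ
        + 4 * ρ * (aR i u ρ) ^ 2 + 12 * ρ * aR i u ρ * bR i u ρ) at heq
  have ha := aR_pos i hs hne hΩ hc hu hpos hρ
  have hpQ : (p : ℝ) + 2 * QR i u ρ ≠ 0 := by
    unfold QR
    positivity
  rw [eq_div_iff (by positivity)]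
  unfold QR XR Nf
  simp only [id]
  linear_combination (2 * ρ) * heq

include hs hne hΩ hc hu hpos in
/-- the phase-plane conclusions for the symmetric graph -/
theorem sym_conclusion (hp : 2 ≤ p) (hp8 : p ≤ 8) (ham : AffineMaximalOn Ω u) :
    (∃ ρ, 0 < ρ ∧ ρ ∉ Ir i Ω) ∧ ∃ M, ∀ ρ ∈ Ir i Ω, etaR i u ρ ≤ M := by
  have hI0 : ∀ ρ ∈ Ir i Ω, 0 < ρ := fun ρ hρ => hρ.1
  have hIc : ∀ ρ ∈ Ir i Ω, ∀ σ, 0 < σ → σ ≤ ρ → σ ∈ Ir i Ω := fun ρ hρ σ h1 h2 =>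
    ⟨h1, down_mem i hs hne hc hρ.2 (Real.sqrt_nonneg _) (Real.sqrt_le_sqrt (by linarith only [h2]))⟩
  have hQ : ∀ ρ ∈ Ir i Ω, HasDerivAt (QR i u) _ ρ := fun ρ hρ =>
    hasDerivAt_QR i hs hne hΩ hc hu hpos hρ
  have hX : ∀ ρ ∈ Ir i Ω, HasDerivAt (XR i u) _ ρ := fun ρ hρ =>
    hasDerivAt_XR i hs hne hΩ hc hu hpos hp ham hρ
  have hQpos : ∀ ρ ∈ Ir i Ω, 0 < QR i u ρ := fun ρ hρ => by
    have h1 := hρ.1
    have h2 := aR_pos i hs hne hΩ hc hu hpos hρ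
    unfold QR
    positivity
  have hXpos : ∀ ρ ∈ Ir i Ω, 0 < XR i u ρ := fun ρ hρ => bR_pos1 i hs hne hΩ hc hu hpos hρ
  have hQ0 : Tendsto (QR i u) (𝓝[>] 0) (𝓝 0) := by
    have h1 := (tendsto_id0.const_mul 2).mul (tendsto_aR i hs hne hΩ hc hu)
    have h2 : Tendsto (fun ρ => 2 * ρ * aR i u ρ) (𝓝[>] 0) (𝓝 0) := by
      simpa only [mul_zero, zero_mul] using h1
    exact h2
  have hX0 : Tendsto (XR i u) (𝓝[>] 0) (𝓝 1) := tendsto_X i hs hne hΩ hc hu hpos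
  have hng := not_global hp hp8 hI0 hIc hQ hX hQpos hXpos hQ0 hX0
  push Not at hng
  obtain ⟨ρs, hρs0, hρs⟩ := hng
  refine ⟨⟨ρs, hρs0, hρs⟩, ?_⟩
  have hR : ∀ ρ ∈ Ir i Ω, ρ < ρs := by
    intro ρ hρ
    by_contra h
    exact hρs (hIc ρ hρ ρs hρs0 (not_lt.1 h))
  have hL : ∀ ρ ∈ Ir i Ω, HasDerivAt (fun ρ => Real.log (etaR i u ρ)) (QR i u ρ / (2 * ρ)) ρ := by
    intro ρ hρ
    have k1 := (hasDerivAt_etaR i hs hΩ hu hρ).log (etaR_pos i hs hρ).ne'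
    refine HasDerivAt.congr_deriv k1 ?_
    have k2 := etaR_pos i hs hρ
    have k3 := hρ.1
    unfold QR
    field_simp
  obtain ⟨M, hM⟩ := log_bounded hp hp8 hI0 hIc hQ hX hQpos hXpos hQ0 hX0 hL hR
  refine ⟨Real.exp M, fun ρ hρ => ?_⟩
  exact (Real.log_le_iff_le_exp (etaR_pos i hs hρ)).1 (hM ρ hρ)

end

end Vale.Agent.P252
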