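import Vale.Agent.P252.MathlibUsed
import Vale.Agent.P252.Defs
import Vale.Agent.P252.BernsteinDefs
import Vale.Agent.P252.Bdl.B1
import Vale.Agent.P252.H47.Defs
import Vale.Agent.P252.H47.Complete
import Vale.Agent.P252.H47.Rig

/-! The sharp dimension for symmetric Euclidean complete affine maximal graphs. -/

open scoped ContDiff Topology
open Filter Set

namespace Vale.Agent.P252

variable {p : ℕ}

section

variable {Ω : Set (EuclideanSpace ℝ (Fin (p + 1)))} {u : EuclideanSpace ℝ (Fin (p + 1)) → ℝ}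
  (i : Fin p)
  (hs : BoostSymmetric Ω u) (hne : Ω.Nonempty) (hΩ : IsOpen Ω) (hc : Convex ℝ Ω)
  (hu : ContDiffOn ℝ ∞ u Ω) (hpos : ∀ x ∈ Ω, (hess u x).PosDef)

lemma norm_ee : ‖ee i‖ = 1 := by
  unfold ee
  simp

include hs hne hΩ hc hu hpos in
/-- distance of two points of the profile curve -/
lemma graphDist_axis_le {a b : ℝ} (ha : 0 ≤ a) (hb : 0 ≤ b) (haJ : a ∈ Js i Ω)
    (hbJ : b ∈ Js i Ω) :
    graphDist Ω u (a • ee i) (b • ee i) ≤ |b - a| + |h0 i u b - h0 i u a| := by
  have hseg : ∀ t ∈ Icc (0:ℝ) 1, 0 ≤ a + t * (b - a) ∧ a + t * (b - a) ∈ Js i Ω := by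
    intro t ht
    have h1 : 0 ≤ a + t * (b - a) := by
      have k1 := mul_nonneg (sub_nonneg.2 ht.2) ha
      have k2 := mul_nonneg ht.1 hb
      linarith only [k1, k2]
    have h2 : a + t * (b - a) ≤ max a b := by
      have k1 := mul_le_mul_of_nonneg_left (le_max_left a b) (sub_nonneg.2 ht.2)
      have k2 := mul_le_mul_of_nonneg_left (le_max_right a b) ht.1
      linarith only [k1, k2]
    have h3 : max a b ∈ Js i Ω := by
      rcases le_total a b with h | h
      · rw [max_eq_right h]; exact hbJ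
      · rw [max_eq_left h]; exact haJ
    exact ⟨h1, down_mem i hs hne hc h3 h1 h2⟩
  have h1nn : ∀ s ∈ Js i Ω, 0 ≤ s → 0 ≤ h1 i u s := by
    intro s hs1 hs2
    rcases hs2.lt_or_eq with h | h
    · exact (h1_pos i hs hne hΩ hc hu hpos hs1 h).le
    · rw [← h, h1_zero i hs hne hΩ hc hu]
  set γ : ℝ → EuclideanSpace ℝ (Fin (p + 1)) := fun t => (a + t * (b - a)) • ee i with hγ
  have hγd : ∀ t, HasDerivAt γ ((b - a) • ee i) t := by
    intro t
    have k : HasDerivAt (fun t : ℝ => a + t * (b - a)) (b - a) t := by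
      have := ((hasDerivAt_id t).mul_const (b - a)).const_add a
      simpa using this
    exact k.smul_const (ee i)
  have hγc : ContDiff ℝ 1 γ := by
    rw [hγ]
    fun_prop
  have hin : ∀ t ∈ Icc (0:ℝ) 1, γ t ∈ Ω := fun t ht => (hseg t ht).2
  -- the speed
  have hfd : ∀ t ∈ Icc (0:ℝ) 1, fderiv ℝ u (γ t) (deriv γ t) = (b - a) * h1 i u (a + t * (b - a)) := by
    intro t ht
    rw [(hγd t).deriv, map_smul]
    rfl
  have hcont : ContinuousOn (fun t => h1 i u (a + t * (b - a))) (Icc 0 1) := by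
    intro t ht
    have k1 := (hasDerivAt_h1 i hΩ hu (hseg t ht).2).continuousAt
    have k2 : ContinuousAt (fun t : ℝ => a + t * (b - a)) t := by fun_prop
    exact (ContinuousAt.comp (f := fun t : ℝ => a + t * (b - a)) k1 k2).continuousWithinAt
  have hci := hcont.intervalIntegrable_of_Icc (μ := MeasureTheory.volume) zero_le_one
  have hftc : ∫ t in (0:ℝ)..1, (b - a) * h1 i u (a + t * (b - a)) = h0 i u b - h0 i u a := by
    have hd : ∀ t ∈ uIcc (0:ℝ) 1, HasDerivAt (fun t => h0 i u (a + t * (b - a)))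
        ((b - a) * h1 i u (a + t * (b - a))) t := by
      intro t ht
      rw [uIcc_of_le zero_le_one] at ht
      have k : HasDerivAt (fun t : ℝ => a + t * (b - a)) (b - a) t := by
        have := ((hasDerivAt_id t).mul_const (b - a)).const_add a
        simpa using this
      have k2 := (hasDerivAt_h0 i hΩ hu (hseg t ht).2).comp t k
      refine HasDerivAt.congr_deriv k2 ?_
      ring
    have := intervalIntegral.integral_eq_sub_of_hasDerivAt hd (hci.const_mul _)
    rw [this]
    simp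
  have hlen : graphLength u γ ≤ |b - a| + |h0 i u b - h0 i u a| := by
    have hInn : 0 ≤ ∫ t in (0:ℝ)..1, h1 i u (a + t * (b - a)) :=
      intervalIntegral.integral_nonneg zero_le_one
        (fun t ht => h1nn _ (hseg t ht).2 (hseg t ht).1)
    have e1 : |h0 i u b - h0 i u a| = ∫ t in (0:ℝ)..1, |b - a| * h1 i u (a + t * (b - a)) := by
      rw [← hftc, intervalIntegral.integral_const_mul, intervalIntegral.integral_const_mul,
        abs_mul, abs_of_nonneg hInn]
    have e2 : |b - a| + |h0 i u b - h0 i u a| =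
        ∫ t in (0:ℝ)..1, (|b - a| + |b - a| * h1 i u (a + t * (b - a))) := by
      rw [intervalIntegral.integral_add (by simp) (hci.const_mul _), ← e1]
      simp
    rw [e2]
    unfold graphLength
    apply intervalIntegral.integral_mono_on zero_le_one
      ((continuousOn_speed hΩ hu γ hγc hin).intervalIntegrable_of_Icc zero_le_one)
      ((continuousOn_const.intervalIntegrable_of_Icc zero_le_one).add (hci.const_mul _))
    intro t ht
    rw [hfd t ht, (hγd t).deriv, norm_smul, norm_ee, mul_one, Real.norm_eq_abs]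
    have k1 := h1nn _ (hseg t ht).2 (hseg t ht).1
    have k2 := abs_nonneg (b - a)
    apply Real.sqrt_le_iff.mpr
    refine ⟨by positivity, ?_⟩
    have k3 : 0 ≤ |b - a| * (|b - a| * h1 i u (a + t * (b - a))) := by positivity
    rw [mul_pow, ← sq_abs (b - a)]
    nlinarith only [k3]
  refine (csInf_le ?_ ?_).trans hlen
  · refine ⟨0, ?_⟩
    rintro L ⟨γ', hγ', k0, k1, k2, rfl⟩
    exact dist_nonneg.trans (dist_le_graphLength_on hΩ hu γ' hγ' k2)
  · exact ⟨γ, hγc, by simp [hγ], by simp [hγ], hin, rfl⟩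

include hs hne hΩ hc hu hpos in
/-- the graph is not complete when the profile is bounded on a bounded interval -/
theorem not_complete_of_bounded {ρs : ℝ} (hρs0 : 0 < ρs) (hρs : ρs ∉ Ir i Ω) {M : ℝ}
    (hM : ∀ ρ ∈ Ir i Ω, etaR i u ρ ≤ M) : ¬ EuclideanComplete Ω u := by
  intro hcomp
  have hz : (0:ℝ) ∈ Js i Ω := zero_mem' i hs hne hc
  set S : Set ℝ := {s | 0 ≤ s ∧ s ∈ Js i Ω} with hS
  have hSne : S.Nonempty := ⟨0, le_rfl, hz⟩
  have hSb : BddAbove S := by
    refine ⟨Real.sqrt (2 * ρs), ?_⟩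
    rintro s ⟨h1, h2⟩
    by_contra h3
    exact hρs ⟨hρs0, down_mem i hs hne hc h2 (Real.sqrt_nonneg _) (not_le.1 h3).le⟩
  set R := sSup S with hR
  have hlt : ∀ s, 0 ≤ s → s < R → s ∈ Js i Ω := by
    intro s h1 h2
    obtain ⟨t, ht, hst⟩ := exists_lt_of_lt_csSup hSne h2
    exact down_mem i hs hne hc ht.2 h1 hst.le
  have hR0 : 0 < R := by
    obtain ⟨ε, hε, hball⟩ := Metric.isOpen_iff.1 (isOpen_Js i hΩ) 0 hz
    have : ε / 2 ∈ S := by
      refine ⟨by positivity, hball ?_⟩
      rw [Metric.mem_ball, Real.dist_eq, sub_zero, abs_of_pos (by positivity)]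
      linarith only [hε]
    exact lt_of_lt_of_le (by positivity) (le_csSup hSb this)
  have hRn : R ∉ Js i Ω := by
    intro h
    obtain ⟨ε, hε, hball⟩ := Metric.isOpen_iff.1 (isOpen_Js i hΩ) R h
    have : R + ε / 2 ∈ S := by
      refine ⟨by positivity, hball ?_⟩
      rw [Metric.mem_ball, Real.dist_eq, add_sub_cancel_left, abs_of_pos (by positivity)]
      linarith only [hε]
    have := le_csSup hSb this
    linarith only [this, hε]
  -- the sequence
  set s : ℕ → ℝ := fun k => R - R / ((k : ℝ) + 1) with hsdef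
  have hs0 : ∀ k, 0 ≤ s k := by
    intro k
    simp only [hsdef, sub_nonneg]
    apply div_le_self hR0.le
    have : (0:ℝ) ≤ k := Nat.cast_nonneg k
    linarith only [this]
  have hsR : ∀ k, s k < R := by
    intro k
    simp only [hsdef]
    have : 0 < R / ((k : ℝ) + 1) := by positivity
    linarith only [this]
  have hsJ : ∀ k, s k ∈ Js i Ω := fun k => hlt _ (hs0 k) (hsR k)
  have hslim : Tendsto s atTop (𝓝 R) := by
    have h1 : Tendsto (fun k : ℕ => R / ((k : ℝ) + 1)) atTop (𝓝 0) :=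
      tendsto_const_div_atTop_nhds_zero_nat R |>.comp (tendsto_add_atTop_nat 1) |>.congr (by
        intro k; simp [Function.comp])
    have := h1.const_sub R
    simpa using this
  have hsmono : Monotone s := by
    intro j k hjk
    simp only [hsdef]
    have h1 : (j : ℝ) ≤ k := by exact_mod_cast hjk
    have h2 : R / ((k : ℝ) + 1) ≤ R / ((j : ℝ) + 1) :=
      div_le_div_of_nonneg_left hR0.le (by positivity) (by linarith only [h1])
    linarith only [h2]
  have hhmono : Monotone (fun k => h0 i u (s k)) := by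
    intro j k hjk
    have hle := hsmono hjk
    refine mono_of_hasDeriv hle (fun t ht => hasDerivAt_h0 i hΩ hu ?_) (fun t ht => ?_)
    · exact hlt t ((hs0 j).trans ht.1) (lt_of_le_of_lt ht.2 (hsR k))
    · have ht0 := (hs0 j).trans ht.1
      have htJ := hlt t ht0 (lt_of_le_of_lt ht.2 (hsR k))
      rcases ht0.lt_or_eq with h | h
      · exact (h1_pos i hs hne hΩ hc hu hpos htJ h).le
      · rw [← h, h1_zero i hs hne hΩ hc hu]
  have hhb : BddAbove (Set.range (fun k => h0 i u (s k))) := by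
    refine ⟨max M (h0 i u 0), ?_⟩
    rintro _ ⟨k, rfl⟩
    simp only
    rcases (hs0 k).lt_or_eq with h | h
    · apply le_max_of_le_left
      have hmem : s k ^ 2 / 2 ∈ Ir i Ω := by
        refine ⟨by positivity, ?_⟩
        rw [show 2 * (s k ^ 2 / 2) = s k ^ 2 by ring, Real.sqrt_sq h.le]
        exact hsJ k
      have := hM _ hmem
      unfold etaR at this
      rwa [show 2 * (s k ^ 2 / 2) = s k ^ 2 by ring, Real.sqrt_sq h.le] at this
    · rw [← h]
      exact le_max_right _ _
  have hhlim := tendsto_atTop_ciSup hhmono hhb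
  have hxΩ : ∀ k, s k • ee i ∈ Ω := hsJ
  obtain ⟨y, hyΩ, hy⟩ := hcomp (fun k => s k • ee i) hxΩ (by
    intro ε hε
    obtain ⟨N₁, hN₁⟩ := Metric.cauchySeq_iff.1 hslim.cauchySeq (ε / 2) (by positivity)
    obtain ⟨N₂, hN₂⟩ := Metric.cauchySeq_iff.1 hhlim.cauchySeq (ε / 2) (by positivity)
    refine ⟨max N₁ N₂, fun j hj k hk => ?_⟩
    have h1 := hN₁ k ((le_max_left _ _).trans hk) j ((le_max_left _ _).trans hj)
    have h2 := hN₂ k ((le_max_right _ _).trans hk) j ((le_max_right _ _).trans hj)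
    rw [Real.dist_eq] at h1 h2
    have h3 := graphDist_axis_le i hs hne hΩ hc hu hpos (hs0 j) (hs0 k) (hsJ j) (hsJ k)
    linarith only [h1, h2, h3])
  have hle : ∀ k, dist (s k • ee i) y ≤ graphDist Ω u (s k • ee i) y := by
    intro k
    apply le_csInf
    · exact ⟨_, fun t => s k • ee i + t • (y - s k • ee i), by fun_prop, by simp, by simp,
        segment_mem hc (hxΩ k) hyΩ, rfl⟩
    · rintro L ⟨γ, hγ, k0, k1, k2, rfl⟩
      rw [← k0, ← k1]
      exact dist_le_graphLength_on hΩ hu γ hγ k2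
  have hlim1 : Tendsto (fun k => s k • ee i) atTop (𝓝 y) := by
    rw [tendsto_iff_dist_tendsto_zero]
    exact squeeze_zero (fun k => dist_nonneg) hle hy
  have hlim2 : Tendsto (fun k => s k • ee i) atTop (𝓝 (R • ee i)) := hslim.smul_const _
  have := tendsto_nhds_unique hlim1 hlim2
  rw [this] at hyΩ
  exact hRn hyΩ

end

/-- Rigidity in the symmetry class for `2 ≤ p ≤ 8`, that is `3 ≤ n ≤ 9`. -/
theorem rigidity (hp : 2 ≤ p) (hp8 : p ≤ 8) {Ω : Set (EuclideanSpace ℝ (Fin (p + 1)))}
    {u : EuclideanSpace ℝ (Fin (p + 1)) → ℝ} (hne : Ω.Nonempty) (hΩ : IsOpen Ω) (hc : Convex ℝ Ω)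
    (hu : ContDiffOn ℝ ∞ u Ω) (hpos : ∀ x ∈ Ω, (hess u x).PosDef) (ham : AffineMaximalOn Ω u)
    (hs : BoostSymmetric Ω u) : ¬ EuclideanComplete Ω u := by
  obtain ⟨⟨ρs, h1, h2⟩, M, hM⟩ := sym_conclusion (⟨0, by omega⟩ : Fin p) hs hne hΩ hc hu hpos
    hp hp8 ham
  exact not_complete_of_bounded (⟨0, by omega⟩ : Fin p) hs hne hΩ hc hu hpos h1 h2 hM

/-- the entire example is symmetric -/
theorem symmetric_uu (D : OdeData p) : BoostSymmetric Set.univ (uu D) := by
  refine ⟨fun x _ => ?_, fun x _ y h => ⟨Set.mem_univ _, ?_⟩⟩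
  · have h1 := uu_sq D x
    have h2 := hh_pos D x
    have h3 := uu_pos D x
    apply abs_lt_of_sq_lt_sq _ h3.le
    rw [h1]
    have : 0 < hh D x ^ 2 := by positivity
    linarith only [this]
  · rw [uu_sq, uu_sq]
    have h2 : rho y = rho x := by
      rw [norm_sq_sub, norm_sq_sub] at h
      linarith only [h]
    unfold hh
    rw [h2]
    ring

end Vale.Agent.P252
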